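import Vale.Agent.P134U.Defs

/-!
# P134U: compactness in `C ^ 2` along an ultrafilter
-/

open Metric Set Filter Topology
open scoped ContDiff Gradient

noncomputable section

namespace Vale.Agent.P134U

open Vale.Agent.P134L (E)
open Vale.Agent.P134G (d2 ee)

theorem c2_uc {X F : Type*} [PseudoMetricSpace X] [NormedAddCommGroup F] [ProperSpace F]
    (U : Ultrafilter ℕ) (f : ℕ → X → F) {s : Set X} (hs : TotallyBounded s) (B : ℝ)
    (hb : ∀ᶠ k in U, ∀ y ∈ s, ‖f k y‖ ≤ B)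
    (hc : ∀ ε > (0 : ℝ), ∃ δ > (0 : ℝ), ∀ᶠ k in U, ∀ y ∈ s, ∀ z ∈ s, dist y z < δ →
      dist (f k y) (f k z) ≤ ε) :
    ∃ g : X → F, TendstoUniformlyOn f g U s ∧ ContinuousOn g s := by
  have h1 : ∀ y, ∃ a, y ∈ s → Tendsto (fun k => f k y) U (𝓝 a) := fun y => by
    by_cases hy : y ∈ s
    · obtain ⟨a, -, ha⟩ := (isCompact_closedBall (0 : F) B).ultrafilter_le_nhds
        (U.map fun k => f k y) (le_principal_iff.2 (by
          rw [Ultrafilter.coe_map, Filter.mem_map]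
          exact hb.mono fun k hk => mem_closedBall_zero_iff.2 (hk y hy)))
      exact ⟨a, fun _ => ha⟩
    · exact ⟨0, fun h => absurd h hy⟩
  choose g hg using h1
  have h2 : ∀ ε δ : ℝ, (∀ᶠ k in U, ∀ y ∈ s, ∀ z ∈ s, dist y z < δ → dist (f k y) (f k z) ≤ ε) →
      ∀ y ∈ s, ∀ z ∈ s, dist y z < δ → dist (g y) (g z) ≤ ε := fun ε δ h y hy z hz hd =>
    le_of_tendsto ((hg y hy).dist (hg z hz)) (h.mono fun k hk => hk y hy z hz hd)
  refine ⟨g, Metric.tendstoUniformlyOn_iff.2 fun ε hε => ?_, Metric.continuousOn_iff.2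
    fun y hy ε hε => ?_⟩
  · obtain ⟨δ, hδ, h⟩ := hc (ε / 3) (by positivity)
    obtain ⟨t, ts, tf, ht⟩ := Metric.finite_approx_of_totallyBounded hs δ hδ
    have h3 : ∀ᶠ k in U, ∀ c ∈ t, dist (f k c) (g c) < ε / 3 :=
      (eventually_all_finite tf).2 fun c hc' =>
        Metric.tendsto_nhds.1 (hg c (ts hc')) _ (by positivity)
    filter_upwards [h, h3] with k k1 k2 y hy
    obtain ⟨c, hc', hy'⟩ := mem_iUnion₂.1 (ht hy)
    have a1 := h2 _ _ h y hy c (ts hc') hy'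
    have a2 := k1 c (ts hc') y hy (by rw [dist_comm]; exact hy')
    have a3 := k2 c hc'
    rw [dist_comm] at a3
    linarith [dist_triangle4 (g y) (g c) (f k c) (f k y)]
  · obtain ⟨δ, hδ, h⟩ := hc (ε / 2) (by positivity)
    exact ⟨δ, hδ, fun z hz hd => (h2 _ _ h z hz y hy hd).trans_lt (by linarith)⟩

theorem c2_der {X F : Type*} [NormedAddCommGroup X] [NormedSpace ℝ X] [NormedAddCommGroup F]
    [NormedSpace ℝ F] {U : Filter ℕ} [U.NeBot] {f : ℕ → X → F} {g : X → F} {g' : X → X →L[ℝ] F}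
    {s : Set X} (hs : IsOpen s) (hd : ∀ᶠ k in U, DifferentiableOn ℝ (f k) s)
    (h0 : TendstoUniformlyOn f g U s) (h1 : TendstoUniformlyOn (fun k => fderiv ℝ (f k)) g' U s)
    {x : X} (hx : x ∈ s) : HasFDerivAt g (g' x) x := by
  refine hasFDerivAt_of_tendstoUniformlyOnFilter (l := U) (f := f) (f' := fun k => fderiv ℝ (f k))
    ?_ ?_ (eventually_of_mem (hs.mem_nhds hx) fun y hy => h0.tendsto_at hy)
  · exact (tendstoUniformlyOn_iff_tendstoUniformlyOnFilter.1 h1).mono_right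
      (le_principal_iff.2 (hs.mem_nhds hx))
  · exact (hd.prod_mk (hs.mem_nhds hx)).mono fun n hn =>
      (hn.1.differentiableAt (hs.mem_nhds hn.2)).hasFDerivAt

theorem c2_op {m : ℕ} {F : Type*} [NormedAddCommGroup F] [NormedSpace ℝ F] (T : E m →L[ℝ] F) :
    ‖T‖ ≤ ∑ i, ‖T (ee i)‖ := by
  refine T.opNorm_le_bound (Finset.sum_nonneg fun _ _ => norm_nonneg _) fun v => ?_
  have e : v = ∑ i, v i • ee i := by
    simpa using ((EuclideanSpace.basisFun (Fin m) ℝ).sum_repr v).symm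
  conv_lhs => rw [e]
  rw [map_sum, Finset.sum_mul]
  refine (norm_sum_le _ _).trans (Finset.sum_le_sum fun i _ => ?_)
  rw [map_smul, norm_smul, mul_comm]
  exact mul_le_mul_of_nonneg_left (PiLp.norm_apply_le v i) (norm_nonneg _)

theorem c2 : C2 := by
  intro m U h C H
  have tb : TotallyBounded (ball (0 : E m) 4) :=
    (isCompact_closedBall (0 : E m) 4).totallyBounded.subset ball_subset_closedBall
  have cv : Convex ℝ (ball (0 : E m) 4) := convex_ball _ _
  have op : IsOpen (ball (0 : E m) 4) := isOpen_ball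
  have d0 : ∀ᶠ k in U, DifferentiableOn ℝ (h k) (ball 0 4) :=
    H.mono fun k hk => hk.1.differentiableOn (by simp)
  have d1 : ∀ᶠ k in U, DifferentiableOn ℝ (fderiv ℝ (h k)) (ball 0 4) :=
    H.mono fun k hk => (hk.1.fderiv_of_isOpen (m := 1) op (by norm_cast)).differentiableOn (by simp)
  have b1 : ∀ᶠ k in U, ∀ y ∈ ball (0 : E m) 4, ‖fderiv ℝ (h k) y‖ ≤ 1 / 10 :=
    H.mono fun k hk y hy => by
      have := (hk.2.2 y hy).1
      rwa [gradient, LinearIsometryEquiv.norm_map] at this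
  have l0 : ∀ᶠ k in U, ∀ y ∈ ball (0 : E m) 4, ∀ z ∈ ball (0 : E m) 4,
      ‖h k y - h k z‖ ≤ 1 / 10 * ‖y - z‖ := by
    filter_upwards [d0, b1] with k k0 k1 y hy z hz
    exact cv.norm_image_sub_le_of_norm_fderiv_le
      (fun w hw => k0.differentiableAt (op.mem_nhds hw)) k1 hz hy
  have l1 : ∀ᶠ k in U, ∀ y ∈ ball (0 : E m) 4, ∀ z ∈ ball (0 : E m) 4,
      ‖fderiv ℝ (h k) y - fderiv ℝ (h k) z‖ ≤ 1 / 10 * ‖y - z‖ := by
    filter_upwards [d1, H] with k k0 k1 y hy z hz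
    exact cv.norm_image_sub_le_of_norm_fderiv_le
      (fun w hw => k0.differentiableAt (op.mem_nhds hw)) (fun w hw => (k1.2.2 w hw).2.1) hz hy
  obtain ⟨g, g0, -⟩ := c2_uc U h tb 1 (by
    filter_upwards [l0, H] with k k0 k1 y hy
    have := k0 y hy 0 (mem_ball_self four_pos)
    rw [k1.2.1, sub_zero, sub_zero] at this
    linarith [mem_ball_zero_iff.1 hy]) fun ε hε => ⟨ε, hε, l0.mono fun k hk y hy z hz hd => by
      rw [dist_eq_norm] at hd ⊢
      linarith [hk y hy z hz]⟩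
  obtain ⟨g1, g10, -⟩ := c2_uc U (fun k => fderiv ℝ (h k)) tb _ b1
    fun ε hε => ⟨ε, hε, l1.mono fun k hk y hy z hz hd => by
      rw [dist_eq_norm] at hd ⊢
      linarith [hk y hy z hz]⟩
  obtain ⟨g2, g20, g2c⟩ := c2_uc U (fun k => fderiv ℝ (fderiv ℝ (h k))) tb _
    (H.mono fun k hk y hy => (hk.2.2 y hy).2.1) fun ε hε => by
      have hK : 0 < (m : ℝ) * m * |C| + 1 := by positivity
      refine ⟨(ε / (m * m * |C| + 1)) ^ 2, by positivity, H.mono fun k hk y hy z hz hd => ?_⟩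
      rw [dist_eq_norm] at hd ⊢
      have s1 : √‖y - z‖ ≤ ε / (m * m * |C| + 1) := Real.sqrt_le_iff.2 ⟨by positivity, hd.le⟩
      have s2 : ∀ i j, ‖(fderiv ℝ (fderiv ℝ (h k)) y - fderiv ℝ (fderiv ℝ (h k)) z) (ee i) (ee j)‖
          ≤ |C| * (ε / (m * m * |C| + 1)) := fun i j =>
        ((hk.2.2 y hy).2.2 z hz i j).trans (mul_le_mul (le_abs_self C) s1 (Real.sqrt_nonneg _)
          (abs_nonneg C))
      refine (c2_op _).trans ((Finset.sum_le_sum fun i _ => (c2_op _).trans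
        (Finset.sum_le_sum fun j _ => s2 i j)).trans ?_)
      simp only [Finset.sum_const, Finset.card_univ, Fintype.card_fin, nsmul_eq_mul]
      rw [← mul_assoc, ← mul_assoc, ← mul_div_assoc, div_le_iff₀ hK]
      nlinarith
  have e1 : ∀ x ∈ ball (0 : E m) 4, HasFDerivAt g (g1 x) x := fun x hx => c2_der op d0 g0 g10 hx
  have e2 : ∀ x ∈ ball (0 : E m) 4, HasFDerivAt g1 (g2 x) x := fun x hx => c2_der op d1 g10 g20 hx
  have f1 : EqOn g1 (fderiv ℝ g) (ball 0 4) := fun x hx => (e1 x hx).fderiv.symm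
  have e3 : ∀ x ∈ ball (0 : E m) 4, HasFDerivAt (fderiv ℝ g) (g2 x) x := fun x hx =>
    (e2 x hx).congr_of_eventuallyEq (eventually_of_mem (op.mem_nhds hx) fun y hy => (f1 hy).symm)
  have f2 : EqOn g2 (fderiv ℝ (fderiv ℝ g)) (ball 0 4) := fun x hx => (e3 x hx).fderiv.symm
  refine ⟨g, ?_, g0, g10.congr_right f1, g20.congr_right f2⟩
  refine (contDiffOn_succ_iff_fderiv_of_isOpen (n := 1) op).2 ⟨fun x hx =>
    (e1 x hx).differentiableAt.differentiableWithinAt, by simp, ?_⟩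
  refine (contDiffOn_succ_iff_fderiv_of_isOpen (n := 0) op).2 ⟨fun x hx =>
    (e3 x hx).differentiableAt.differentiableWithinAt, by simp, ?_⟩
  exact contDiffOn_zero.2 (g2c.congr f2.symm)

end Vale.Agent.P134U
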