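import Vale.Agent.P134K.Br

/-!
# P134U: extensions with tangential gradient
-/

open MeasureTheory Metric Set Filter Topology
open scoped ContDiff RealInnerProductSpace Gradient

noncomputable section

namespace Vale.Agent.P134U

open Vale.Agent.P134L (E Leaf)
open Vale.Agent.P134K (disc inner_grad ok_h0)

theorem ext_H {m : ℕ} {η h : E m → ℝ} (hη : ContDiff ℝ ∞ η) (h0 : ∀ y, 1 / 8 ≤ ‖y‖ → η y = 0)
    (hh : ContDiffOn ℝ ∞ h (ball 0 4)) : ∃ H : E m × ℝ → ℝ, ContDiff ℝ ∞ H ∧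
      (∀ y t, (1 / 8 < ‖y‖ ∨ 1 / 8 ≤ |t - h y|) → H (y, t) = 0) ∧
      ∀ y ∈ ball (0 : E m) 4, H (y, h y) = η y ∧ fderiv ℝ H (y, h y) (-∇ h y, 1) = 0 := by
  let β : ContDiffBump (0 : ℝ) := ⟨1 / 16, 1 / 8, by norm_num, by norm_num⟩
  obtain ⟨c, hc⟩ : ∃ c : E m → ℝ, c = fun y => fderiv ℝ η y (∇ h y) / (1 + ‖∇ h y‖ ^ 2) :=
    ⟨_, rfl⟩
  have hO : IsOpen {y : E m | 1 / 8 < ‖y‖} := isOpen_lt continuous_const continuous_norm
  have hc0 : ∀ y, 1 / 8 < ‖y‖ → c y = 0 := fun y hy => by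
    have : η =ᶠ[𝓝 y] fun _ => 0 := by
      filter_upwards [hO.mem_nhds hy] with z hz using h0 z (le_of_lt hz)
    simp [hc, this.fderiv_eq]
  have hA : ∀ y ∈ ball (0 : E m) 4, ContDiffAt ℝ ∞ h y := fun y hy =>
    hh.contDiffAt (isOpen_ball.mem_nhds hy)
  have hcs : ∀ y ∈ ball (0 : E m) 4, ContDiffAt ℝ ∞ c y := fun y hy => by
    have g : ContDiffAt ℝ ∞ (∇ h) y :=
      (InnerProductSpace.toDual ℝ (E m)).symm.contDiff.contDiffAt.comp y
        ((hA y hy).fderiv_right (m := ∞) (by simp))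
    rw [hc]
    exact ((hη.contDiffAt.fderiv_right (m := ∞) (by simp)).clm_apply g).div
      (contDiffAt_const.add (g.norm_sq ℝ)) (by positivity)
  have hz : ∀ y t, (1 / 8 < ‖y‖ ∨ 1 / 8 ≤ |t - h y|) →
      (η y + (t - h y) * c y) * β (t - h y) = 0 := by
    rintro y t (k | k)
    · rw [h0 y k.le, hc0 y k, mul_zero, add_zero, zero_mul]
    · rw [β.zero_of_le_dist (by rwa [dist_zero_right]), mul_zero]
  have hH : ContDiff ℝ ∞ fun w : E m × ℝ =>
      (η w.1 + (w.2 - h w.1) * c w.1) * β (w.2 - h w.1) := by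
    refine contDiff_iff_contDiffAt.2 fun w => ?_
    by_cases k : w.1 ∈ ball (0 : E m) 4
    · have k1 : ContDiffAt ℝ ∞ (fun w : E m × ℝ => w.2 - h w.1) w :=
        contDiffAt_snd.sub ((hA _ k).comp w contDiffAt_fst)
      exact ((hη.contDiffAt.comp w contDiffAt_fst).add (k1.mul ((hcs _ k).comp w
        contDiffAt_fst))).mul (β.contDiff.contDiffAt.comp w k1)
    · refine (contDiffAt_const (c := 0)).congr_of_eventuallyEq ?_
      have k1 : 1 / 8 < ‖w.1‖ := by
        rw [mem_ball_zero_iff, not_lt] at k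
        linarith
      filter_upwards [(hO.preimage continuous_fst).mem_nhds k1] with z hz'
      exact hz _ _ (Or.inl hz')
  refine ⟨_, hH, hz, fun y hy => ⟨?_, ?_⟩⟩
  · simp only [sub_self, zero_mul, add_zero]
    rw [β.one_of_mem_closedBall (mem_closedBall_self (by norm_num [β])), mul_one]
  · have d1 : HasFDerivAt (fun w : E m × ℝ => w.2 - h w.1) _ (y, h y) :=
      hasFDerivAt_snd.sub (((hA y hy).differentiableAt (by simp)).hasFDerivAt.comp (y, h y)
        hasFDerivAt_fst)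
    have d2 : HasFDerivAt (fun w : E m × ℝ => η w.1 + (w.2 - h w.1) * c w.1) _ (y, h y) :=
      ((hη.differentiable (by simp) y).hasFDerivAt.comp (y, h y) hasFDerivAt_fst).add
        (d1.mul (((hcs y hy).differentiableAt (by simp)).hasFDerivAt.comp (y, h y) hasFDerivAt_fst))
    have e : (fun w : E m × ℝ => (η w.1 + (w.2 - h w.1) * c w.1) * β (w.2 - h w.1)) =ᶠ[𝓝 (y, h y)]
        fun w : E m × ℝ => η w.1 + (w.2 - h w.1) * c w.1 := by
      have k : Tendsto (fun w : E m × ℝ => w.2 - h w.1) (𝓝 (y, h y)) (𝓝 0) := by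
        simpa using d1.continuousAt.tendsto
      filter_upwards [k.eventually β.eventuallyEq_one] with w hw
      rw [hw, Pi.one_apply, mul_one]
    rw [e.fderiv_eq, d2.fderiv]
    have k : fderiv ℝ h y (∇ h y) = ‖∇ h y‖ ^ 2 := by
      rw [← inner_grad, real_inner_self_eq_norm_sq]
    simp [hc, k]
    field_simp
    ring

theorem ext : EXT := by
  intro m M _ _ _ _ L _ hL hC hT p f hf h0
  have hK := ok0 hL
  have hd : ∀ y ∈ ball (0 : E m) 4, ‖y‖ ≤ dist (L.φ p y) p := fun y hy => by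
    simpa [hL.φ0] using hT.inj p y hy 0 (mem_ball_self four_pos)
  classical
  obtain ⟨η, hη⟩ : ∃ η : E m → ℝ, η = fun y => if ‖y‖ < 1 then f (L.φ p y) else 0 := ⟨_, rfl⟩
  have e4 : ∀ y ∈ ball (0 : E m) 4, η y = f (L.φ p y) := fun y hy => by
    rw [hη]
    dsimp only
    split_ifs with k
    · rfl
    · exact (h0 _ (by linarith [hd y hy, not_lt.1 k])).symm
  have e0 : ∀ y, 1 / 8 ≤ ‖y‖ → η y = 0 := fun y hy => by
    rw [hη]
    dsimp only
    split_ifs with k
    · exact h0 _ (hy.trans (hd y (mem_ball_zero_iff.2 (by linarith))))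
    · rfl
  have es : ContDiff ℝ ∞ η := by
    refine contDiff_iff_contDiffAt.2 fun y => ?_
    by_cases k : y ∈ ball (0 : E m) 1
    · refine ((hT.sm p f y k).1 (hf _)).self_of_nhds.congr_of_eventuallyEq ?_
      filter_upwards [isOpen_ball.mem_nhds (ball_subset_ball (by norm_num : (1 : ℝ) ≤ 4) k)]
        with z hz using e4 z hz
    · refine (contDiffAt_const (c := 0)).congr_of_eventuallyEq ?_
      have k1 : 1 / 8 < ‖y‖ := by
        rw [mem_ball_zero_iff, not_lt] at k
        linarith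
      filter_upwards [(isOpen_lt continuous_const continuous_norm).mem_nhds k1] with z hz
      exact e0 z (le_of_lt hz)
  obtain ⟨H, H1, H2, H3⟩ := ext_H es e0 (hL.hs p)
  let A : E (m + 1) →L[ℝ] E m × ℝ := ((disc hK).Ls p).prod (innerSL ℝ (L.N p))
  have hA : ∀ v, A v = ((disc hK).Ls p v, ⟪L.N p, v⟫) := fun _ => rfl
  have hG : ContDiff ℝ ∞ fun w => H (A (w - L.x p)) :=
    H1.comp (A.contDiff.comp (contDiff_id.sub contDiff_const))
  have NN : ⟪L.N p, L.N p⟫ = 1 := (disc hK).NN p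
  refine ⟨_, hG, fun w hw => H2 _ _ ?_, fun q hq => ?_⟩
  · by_contra k
    rw [not_or, not_lt, not_le] at k
    have k1 : L.L p ((disc hK).Ls p (w - L.x p)) = w - L.x p - ⟪L.N p, w - L.x p⟫ • L.N p :=
      (disc hK).L_Ls p _
    obtain ⟨k2, k3⟩ := k
    change |⟪L.N p, w - L.x p⟫ - _| < _ at k3
    generalize (disc hK).Ls p (w - L.x p) = y at k1 k2 k3
    generalize ⟪L.N p, w - L.x p⟫ = t at k1 k3
    have k4 : ‖L.h p y - L.h p 0‖ ≤ 1 * ‖y - 0‖ :=
      (convex_ball (0 : E m) 4).norm_image_sub_le_of_norm_fderiv_le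
        (fun z hz => ((hL.hs p).contDiffAt (isOpen_ball.mem_nhds hz)).differentiableAt (by simp))
        (hL.h1 p) (mem_ball_self four_pos) (mem_ball_zero_iff.2 (by linarith))
    rw [ok_h0 hK, sub_zero, sub_zero, one_mul, Real.norm_eq_abs] at k4
    have k5 := norm_add_le (L.L p y) (t • L.N p)
    rw [LinearIsometry.norm_map, norm_smul, hL.N1, mul_one, Real.norm_eq_abs, k1,
      sub_add_cancel] at k5
    linarith [abs_sub_abs_le_abs_sub t (L.h p y)]
  · have hx : ∀ y ∈ ball (0 : E m) 4, A (L.x (L.φ p y) - L.x p) = (y, L.h p y) := fun y hy => by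
      rw [hA]
      refine Prod.ext ((disc hK).ψ_φ hy) ?_
      rw [hL.xφ p y hy, add_assoc, add_sub_cancel_left, inner_add_right, hL.NL, inner_smul_right,
        NN, mul_one, zero_add]
    have hv : ∀ q, dist q p < 2 → H (A (L.x q - L.x p)) = f q := fun q hq => by
      obtain ⟨y, hy, rfl⟩ := hL.onto p q hq
      rw [hx y hy, (H3 y hy).1, e4 y hy]
    refine ⟨hv q hq, fun i => ?_⟩
    have e : f =ᶠ[𝓝 q] fun q => H (A (L.geo.x q - L.x p)) := by
      filter_upwards [isOpen_ball.mem_nhds (mem_ball.2 hq)] with z hz using (hv z hz).symm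
    have hN : fderiv ℝ (fun w => H (A (w - L.x p))) (L.x q) (L.N q) = 0 := by
      obtain ⟨y, hy, rfl⟩ := hL.onto p q hq
      have d : HasFDerivAt (fun w => H (A (w - L.x p))) _ (L.x (L.φ p y)) :=
        (H1.differentiable (by simp) _).hasFDerivAt.comp _
          (A.hasFDerivAt.comp _ ((hasFDerivAt_id _).sub_const (L.x p)))
      have k : A (L.N p - L.L p (∇ (L.h p) y)) = (-∇ (L.h p) y, 1) := by
        rw [hA, inner_sub_right, NN, hL.NL, sub_zero, map_sub]
        refine Prod.ext ?_ rfl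
        have k1 := (disc hK).Ls_N p
        have k2 := (disc hK).Ls_L p (∇ (L.h p) y)
        exact (congrArg₂ (· - ·) k1 k2).trans (zero_sub _)
      have k1 : fderiv ℝ (fun w => H (A (w - L.x p))) (L.x (L.φ p y))
          (√(1 + ‖∇ (L.h p) y‖ ^ 2) • L.N (L.φ p y)) = 0 := by
        rw [hL.Nφ p y hy, d.fderiv, ← (H3 y hy).2, ← k, ← hx y hy]
        rfl
      rw [map_smul, smul_eq_zero] at k1
      exact k1.resolve_left (by positivity)
    rw [hC.cgr e i, hC.amb (g := fun w => H (A (w - L.x p))) (hG.differentiable (by simp) _) i,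
      map_sub, map_smul]
    change _ = _ - _ • fderiv ℝ (fun w => H (A (w - L.x p))) (L.x q) (L.N q)
    rw [hN, smul_zero, sub_zero]
    have := inner_grad (fun w => H (A (w - L.x p))) (L.x q) (EuclideanSpace.single i 1)
    rw [EuclideanSpace.inner_single_right, conj_trivial, one_mul] at this
    exact this

end Vale.Agent.P134U
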