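import Vale.Agent.P134K.Br

/-!
# P134U: integrals in one disc
-/

open MeasureTheory Metric Set Filter Topology
open scoped ContDiff RealInnerProductSpace Gradient

noncomputable section
namespace Vale.Agent.P134U

open Vale.Agent.P134L (E Leaf)
open Vale.Agent.P134K (disc)

theorem int : INT := by
  intro m M _ _ _ L ok p F hF h0
  classical
  have D := ok0 ok
  have b4 : ball (0 : E m) 1 ⊆ ball 0 4 := ball_subset_ball (by norm_num)
  have mb : MeasurableSet (ball (0 : E m) 1) := measurableSet_ball
  have hφ : Measurable ((ball (0 : E m) 1).piecewise (L.φ p) fun _ => p) :=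
    (((disc D).contOn_φ p).mono b4).measurable_piecewise continuousOn_const mb
  have hd : Measurable fun y => ENNReal.ofReal √(1 + ‖∇ (L.h p) y‖ ^ 2) := by
    simp only [gradient, LinearIsometryEquiv.norm_map]
    have := (measurable_fderiv ℝ (L.h p)).norm
    fun_prop
  have e : L.μ.restrict (L.φ p '' ball 0 1) = ((volume.restrict (ball (0 : E m) 1)).withDensity
      fun y => ENNReal.ofReal √(1 + ‖∇ (L.h p) y‖ ^ 2)).map
        ((ball (0 : E m) 1).piecewise (L.φ p) fun _ => p) := by
    ext A hA
    rw [Measure.restrict_apply hA, Measure.map_apply hφ hA, withDensity_apply _ (hφ hA),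
      Measure.restrict_restrict (hφ hA), ← ok.vol p _ ((hφ hA).inter mb) inter_subset_right]
    congr 1
    ext q
    constructor
    · rintro ⟨h1, y, hy, rfl⟩
      exact ⟨y, ⟨by rwa [mem_preimage, piecewise_eq_of_mem _ _ _ hy], hy⟩, rfl⟩
    · rintro ⟨y, ⟨h1, hy⟩, rfl⟩
      rw [mem_preimage, piecewise_eq_of_mem _ _ _ hy] at h1
      exact ⟨h1, y, hy, rfl⟩
  have z : ∀ q ∉ L.φ p '' ball 0 1, F q = 0 := fun q hq => h0 q (by
    by_contra k
    have k1 : q ∈ ball p 2 := mem_ball.2 (by linarith [not_le.1 k])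
    exact hq ⟨(disc D).ψ p q, mem_ball_zero_iff.2 ((((disc D).norm_ψ p q).trans
      (ok.dx p q)).trans_lt (not_le.1 k)), (disc D).φ_ψ k1⟩)
  have hF' := hF.restrict (s := L.φ p '' ball 0 1)
  rw [← setIntegral_eq_integral_of_forall_compl_eq_zero z, e]
  rw [e] at hF'
  rw [integral_map hφ.aemeasurable hF', integral_withDensity_eq_integral_toReal_smul hd
    (Eventually.of_forall fun _ => ENNReal.ofReal_lt_top)]
  refine setIntegral_congr_fun mb fun y hy => ?_
  simp only [piecewise_eq_of_mem _ _ _ hy, ENNReal.toReal_ofReal (Real.sqrt_nonneg _), smul_eq_mul,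
    P134G.J, mul_comm]

end Vale.Agent.P134U
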