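import Vale.Agent.P134U.Defs

/-!
# P134U: the leaf through a point, as a set of bounded functions
-/

open MeasureTheory Metric Set Filter Topology
open scoped ContDiff RealInnerProductSpace Gradient BoundedContinuousFunction

noncomputable section

namespace Vale.Agent.P134U

open Vale.Agent.P134L (E Leaf)

namespace Met

/-- functions on convex sets which are Lipschitz in the small are Lipschitz -/
theorem lip_of_small {V : Type} [NormedAddCommGroup V] [NormedSpace ℝ V] {s : Set V}
    (hs : Convex ℝ s) {u : V → ℝ} {δ K : ℝ} (hδ : 0 < δ)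
    (h : ∀ y ∈ s, ∀ z ∈ s, dist y z ≤ δ → |u y - u z| ≤ K * dist y z) :
    ∀ y ∈ s, ∀ z ∈ s, |u y - u z| ≤ K * dist y z := by
  have key : ∀ n : ℕ, ∀ y ∈ s, ∀ z ∈ s, dist y z ≤ δ * 2 ^ n → |u y - u z| ≤ K * dist y z := by
    intro n
    induction n with
    | zero => simpa using h
    | succ n ih =>
      intro y hy z hz hd
      have hm : midpoint ℝ y z ∈ s := hs.segment_subset hy hz (midpoint_mem_segment y z)
      have e1 : dist y (midpoint ℝ y z) = 2⁻¹ * dist y z := by simp [dist_left_midpoint]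
      have e2 : dist (midpoint ℝ y z) z = 2⁻¹ * dist y z := by simp [dist_midpoint_right]
      rw [pow_succ] at hd
      have h1 := ih y hy _ hm (by linarith)
      have h2 := ih _ hm z hz (by linarith)
      rw [e1] at h1
      rw [e2] at h2
      linarith [abs_sub_le (u y) (u (midpoint ℝ y z)) (u z)]
  intro y hy z hz
  obtain ⟨n, hn⟩ := pow_unbounded_of_one_lt (dist y z / δ) (one_lt_two (α := ℝ))
  rw [div_lt_iff₀' hδ] at hn
  exact key n y hy z hz hn.le

variable {m : ℕ} {B : Type} (P : Pre m B) (o : B)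

/-- functions which are Lipschitz on every disc -/
abbrev F : Type := {f : B → ℝ // ∀ a z w, P.In a z → P.In a w → |f z - f w| ≤ ‖P.x z - P.x w‖}

/-- the bounded function `q` represents the point `z` -/
def Rep (q : F P →ᵇ ℝ) (z : B) : Prop := ∀ f : F P, q f = f.1 z - f.1 o

/-- the points of the leaf -/
abbrev M : Type := {q : F P →ᵇ ℝ // ∃ z, Rep P o q z}

variable {P o} {p q : M P o} {a z w : B}

theorem lo (hq : Rep P o q z) (hp : Rep P o p w) (f : F P) : |f.1 z - f.1 w| ≤ dist q p := by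
  have h := BoundedContinuousFunction.dist_coe_le_dist (f := q.1) (g := p.1) f
  rwa [hq f, hp f, Real.dist_eq, sub_sub_sub_cancel_right] at h

theorem up (hq : Rep P o q z) (hp : Rep P o p w) (hz : P.In a z) (hw : P.In a w) :
    dist q p ≤ ‖P.x z - P.x w‖ :=
  (BoundedContinuousFunction.dist_le (norm_nonneg _)).2 fun f => by
    rw [hq f, hp f, Real.dist_eq, sub_sub_sub_cancel_right]
    exact f.2 a z w hz hw

theorem uq (hq : Rep P o q z) (hp : Rep P o p z) : q = p :=
  Subtype.ext (BoundedContinuousFunction.ext fun f => (hq f).trans (hp f).symm)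

theorem ex (hp : Rep P o p w) (hz : P.In a z) (hw : P.In a w) : ∃ q : M P o, Rep P o q z := by
  have hc : Continuous fun f : F P => f.1 z - f.1 o :=
    ((continuous_apply z).comp continuous_subtype_val).sub
      ((continuous_apply o).comp continuous_subtype_val)
  refine ⟨⟨.ofNormedAddCommGroup _ hc (‖P.x z - P.x w‖ + ‖p.1‖) fun f => ?_, z, fun _ => rfl⟩,
    fun _ => rfl⟩
  have h1 := p.1.norm_coe_le_norm f
  rw [hp f] at h1
  exact (abs_sub_le _ (f.1 w) _).trans (add_le_add (f.2 a z w hz hw) h1)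

theorem dx (hq : Rep P o q z) (hp : Rep P o p w) : ‖P.x z - P.x w‖ ≤ dist q p := by
  simpa using lo hq hp ⟨fun u => ‖P.x u - P.x w‖, fun _ u v _ _ =>
    (abs_norm_sub_norm_le _ _).trans_eq (by rw [sub_sub_sub_cancel_right])⟩

open Classical in
/-- a point which is represented by `q` -/
def ι (q : M P o) : B := if Rep P o q o then o else q.2.choose

theorem rep_ι (q : M P o) : Rep P o q (ι q) := by
  unfold ι
  split_ifs with h
  exacts [h, q.2.choose_spec]

open Classical in
/-- the function which represents `z` -/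
def pt (p : M P o) (z : B) : M P o := if h : ∃ q : M P o, Rep P o q z then h.choose else p

theorem rep_pt (p : M P o) (h : ∃ q : M P o, Rep P o q z) : Rep P o (pt p z) z := by
  rw [pt, dif_pos h]
  exact h.choose_spec

variable (hP : P.Ok)
include hP

theorem near (hq : Rep P o q z) (hp : Rep P o p w) (h : dist q p < 2) : P.In w z := by
  classical
  have key : ∀ a u v, P.In a u → P.In a v → P.In w u → ¬P.In w v →
      |min ‖P.x u - P.x w‖ 2 - 2| ≤ ‖P.x u - P.x v‖ := fun a u v hu hv h1 h2 => by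
    have h3 := not_lt.1 fun h => h2 (hP.rc a w u v hu hv h1 h)
    rw [abs_sub_comm, abs_of_nonneg (sub_nonneg.2 (min_le_right _ _)), sub_le_comm]
    exact le_min (by linarith) (by linarith [norm_nonneg (P.x u - P.x v)])
  by_contra hz
  have h1 := lo hq hp ⟨fun u => if P.In w u then min ‖P.x u - P.x w‖ 2 else 2,
    fun a u v hu hv => by
      beta_reduce
      split_ifs with h1 h2 h2
      · refine (abs_min_sub_min_le_max _ _ _ _).trans (max_le ?_ (by simp))
        exact (abs_norm_sub_norm_le _ _).trans_eq (by rw [sub_sub_sub_cancel_right])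
      · exact key a u v hu hv h1 h2
      · rw [abs_sub_comm, norm_sub_rev (P.x u)]
        exact key a v u hv hu h2 h1
      · simp⟩
  simp [hz, hP.self w] at h1
  linarith

theorem x_sub (a : B) {y y' : E m} (hy : y ∈ ball (0 : E m) 4) (hy' : y' ∈ ball (0 : E m) 4) :
    dist y y' ≤ ‖P.x (P.φ a y) - P.x (P.φ a y')‖ ∧
      ‖P.x (P.φ a y) - P.x (P.φ a y')‖ ≤ 11 / 10 * dist y y' := by
  have e : P.x (P.φ a y) - P.x (P.φ a y') = P.L a (y - y') + (P.h a y - P.h a y') • P.N a := by
    rw [hP.xφ a y hy, hP.xφ a y' hy', map_sub, sub_smul]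
    abel
  rw [e, dist_eq_norm]
  refine ⟨le_of_sq_le_sq ?_ (norm_nonneg _), (norm_add_le _ _).trans ?_⟩
  · rw [norm_add_sq_real, inner_smul_right, real_inner_comm, hP.NL, LinearIsometry.norm_map]
    nlinarith [sq_nonneg ‖(P.h a y - P.h a y') • P.N a‖]
  · have h := (convex_ball (0 : E m) 4).norm_image_sub_le_of_norm_fderiv_le (𝕜 := ℝ)
      (fun u hu => ((hP.hs a).contDiffAt (isOpen_ball.mem_nhds hu)).differentiableAt (by simp))
      (hP.h1 a) hy' hy
    rw [LinearIsometry.norm_map, norm_smul, hP.N1]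
    linarith

theorem x_zero (a : B) : P.x (P.φ a 0) = P.x a := by
  simp [hP.xφ a 0 (mem_ball_self four_pos), hP.h0]

theorem same (hz : Rep P o q z) (hw : Rep P o q w) : P.x z = P.x w ∧ P.N z = P.N w := by
  have h1 : P.x z = P.x w := by simpa [sub_eq_zero] using dx hz hw
  obtain ⟨y, hy, h2, h3⟩ := hP.gr w z (near hP hz hw (by simp))
  have h4 := (x_sub hP w hy (mem_ball_self four_pos)).1
  rw [← h2, x_zero hP, h1, sub_self, norm_zero, dist_le_zero] at h4
  have h5 := hP.Nφ w 0 (mem_ball_self four_pos)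
  rw [h3, h4]
  exact ⟨h1, by simpa [hP.d0] using h5⟩

theorem rep_φ (p : M P o) (hq : Rep P o q z) (hz : P.In a z) {y : E m}
    (hy : y ∈ ball (0 : E m) 4) : Rep P o (pt p (P.φ a y)) (P.φ a y) :=
  rep_pt p (ex hq (hP.inφ a y hy) hz)

theorem mx : Mx (M P o) := by
  classical
  intro f δ hδ hf p q
  let g : B → ℝ := fun z => if ∃ r : M P o, Rep P o r z then f (pt p z) / 2 else 0
  have hg : ∀ {r : M P o} {z : B}, Rep P o r z → g z = f r / 2 := fun {r z} h => by
    simp only [g, if_pos (⟨r, h⟩ : ∃ r : M P o, Rep P o r z), uq (rep_pt p ⟨r, h⟩) h]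
  have h1 := lo (rep_ι p) (rep_ι q) ⟨g, fun a z w hz hw => ?_⟩
  · change |g _ - g _| ≤ _ at h1
    rw [hg (rep_ι p), hg (rep_ι q), ← sub_div, abs_div, abs_two] at h1
    linarith
  by_cases h : ∃ r : M P o, Rep P o r z
  swap
  · have h' : ¬∃ r : M P o, Rep P o r w := fun ⟨r, hr⟩ => h (ex hr hz hw)
    simp only [g, if_neg h, if_neg h']
    simp
  obtain ⟨r, hr⟩ := h
  have e : ∀ u, P.In a u → ∃ y ∈ ball (0 : E m) 4, P.x u = P.x (P.φ a y) ∧ g u = g (P.φ a y) :=
    fun u hu => by
      obtain ⟨y, hy, h2, -⟩ := hP.gr a u hu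
      obtain ⟨s, hs⟩ := ex hr hu hz
      have h3 := up hs (rep_φ hP p hr hz hy) hu (hP.inφ a y hy)
      rw [h2, sub_self, norm_zero, dist_le_zero] at h3
      exact ⟨y, hy, h2, by rw [hg hs, hg (rep_φ hP p hr hz hy), h3]⟩
  obtain ⟨y, hy, a1, a2⟩ := e z hz
  obtain ⟨y', hy', b1, b2⟩ := e w hw
  rw [a1, a2, b1, b2]
  refine le_trans ?_ (x_sub hP a hy hy').1
  simpa using lip_of_small (convex_ball (0 : E m) 4) (u := fun y => g (P.φ a y)) (K := 1)
    (half_pos hδ) (fun u hu v hv huv => by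
      have h2 := (up (rep_φ hP p hr hz hu) (rep_φ hP p hr hz hv) (hP.inφ a u hu)
        (hP.inφ a v hv)).trans (x_sub hP a hu hv).2
      have h3 := hf _ _ (h2.trans (by linarith))
      rw [hg (rep_φ hP p hr hz hu), hg (rep_φ hP p hr hz hv), ← sub_div, abs_div, abs_two]
      linarith [dist_nonneg (x := u) (y := v)]) y hy y' hy'

end Met

open Met in
/-- **MET** -/
theorem met : MET := by
  intro m B P o hP
  let _ : MeasurableSpace (M P o) := borel _
  have r : ∀ (p : M P o), ∀ y ∈ ball (0 : E m) 4,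
      Rep P o (pt p (P.φ (ι p) y)) (P.φ (ι p) y) := fun p y hy =>
    rep_φ hP p (rep_ι p) (hP.self _) hy
  refine ⟨M P o, inferInstance, _, ⟨rfl⟩, ⟨0, fun q => P.x (ι q), fun q => P.N (ι q),
    fun q => P.L (ι q), fun q => P.h (ι q), fun p y => pt p (P.φ (ι p) y)⟩, ι,
    ⟨0, o, fun f => by simp⟩, ⟨fun _ => hP.N1 _, fun _ => hP.NL _, fun p => ?_, fun p y hy => ?_,
      fun p y hy => ?_, fun _ => hP.hs _, fun _ y hy => (hP.h1 _ y hy).trans (by norm_num),
      fun _ => hP.h2 _, fun _ => hP.mn _, fun p q => dx (rep_ι q) (rep_ι p),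
      fun p y hy z hz => ?_, fun p q h => ?_⟩, mx hP, ⟨fun _ => rfl, fun _ => rfl, fun _ => rfl,
      fun _ => rfl, fun p q h => near hP (rep_ι q) (rep_ι p) h,
      fun p q h => up (rep_ι q) (rep_ι p) h (hP.self _)⟩, if_pos fun f => by simp⟩
  · have h := up (r p 0 (mem_ball_self four_pos)) (rep_ι p) (hP.inφ _ 0 (mem_ball_self four_pos))
      (hP.self _)
    rwa [x_zero hP, sub_self, norm_zero, dist_le_zero] at h
  · exact (same hP (rep_ι _) (r p y hy)).1.trans (hP.xφ _ y hy)
  · exact (congrArg _ (same hP (rep_ι _) (r p y hy)).2).trans (hP.Nφ _ y hy)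
  · have h := (up (r p y hy) (r p z hz) (hP.inφ _ y hy) (hP.inφ _ z hz)).trans
      (x_sub hP _ hy hz).2
    rw [← dist_eq_norm]
    exact h.trans (by linarith [dist_nonneg (x := y) (y := z)])
  · have h1 := near hP (rep_ι q) (rep_ι p) h
    obtain ⟨y, hy, h2, -⟩ := hP.gr _ _ h1
    have h3 := up (r p y hy) (rep_ι q) (hP.inφ _ y hy) h1
    rw [h2, sub_self, norm_zero, dist_le_zero] at h3
    exact ⟨y, hy, h3⟩

end Vale.Agent.P134U
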