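import Vale.Agent.P134U.Defs

/-!
# Row MU: the area measure
-/

open MeasureTheory Metric Set Filter Topology
open scoped ContDiff RealInnerProductSpace Gradient

noncomputable section

namespace Vale.Agent.P134U

open Vale.Agent.P134L (E Leaf)

namespace MuA

variable {m : ℕ} {M : Type} [MetricSpace M] [MeasurableSpace M] {L : Leaf m M}

/-- the differential of a graph -/
def dA (l : E m →ₗᵢ[ℝ] E (m + 1)) (n : E (m + 1)) (g : E m) : E m →L[ℝ] E (m + 1) :=
  l.toContinuousLinearMap + (innerSL ℝ g).smulRight n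

theorem dA_apply (l : E m →ₗᵢ[ℝ] E (m + 1)) (n : E (m + 1)) (g v : E m) :
    dA l n g v = l v + ⟪g, v⟫ • n := rfl

theorem normDet_dA {l : E m →ₗᵢ[ℝ] E (m + 1)} {n : E (m + 1)} (h1 : ‖n‖ = 1)
    (h2 : ∀ v, ⟪n, l v⟫ = 0) (g : E m) : (dA l n g).normDet = √(1 + ‖g‖ ^ 2) := by
  have h3 : (dA l n g).normDet ^ 2 = _ := (dA l n g).normDet_sq
  have h4 : ((ContinuousLinearMap.adjoint (dA l n g) ∘L dA l n g : E m →L[ℝ] E m) :
      E m →ₗ[ℝ] E m) = LinearMap.transvection (innerₗ (E m) g) g := by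
    refine LinearMap.ext fun u => ext_inner_right ℝ fun v => ?_
    change ⟪ContinuousLinearMap.adjoint (dA l n g) (dA l n g u), v⟫ = ⟪u + ⟪g, u⟫ • g, v⟫
    have h5 : ⟪l u, n⟫ = 0 := by rw [real_inner_comm, h2]
    rw [ContinuousLinearMap.adjoint_inner_left, dA_apply, dA_apply]
    simp only [inner_add_left, inner_add_right, inner_smul_left, inner_smul_right, h2, h5,
      LinearIsometry.inner_map_map, real_inner_self_eq_norm_sq, h1, conj_trivial]
    ring
  rw [ContinuousLinearMap.det, h4, LinearMap.transvection.det] at h3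
  rw [← Real.sqrt_sq (dA l n g).normDet_nonneg, h3]
  simp

/-- the coordinate in the disc of `p` -/
def ψ (L : Leaf m M) (p q : M) : E m :=
  ContinuousLinearMap.adjoint (L.L p).toContinuousLinearMap (L.x q - L.x p)

theorem ψ_φ (h : Ok0 L) {p : M} {y : E m} (hy : y ∈ ball (0 : E m) 4) : ψ L p (L.φ p y) = y := by
  refine ext_inner_right ℝ fun z => ?_
  rw [ψ, ContinuousLinearMap.adjoint_inner_left, h.xφ p y hy, add_assoc, add_sub_cancel_left]
  change ⟪_, L.L p z⟫ = _
  rw [inner_add_left, inner_smul_left, h.NL, LinearIsometry.inner_map_map, mul_zero, add_zero]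

theorem φ_ψ (h : Ok0 L) {p q : M} (hq : q ∈ ball p 2) :
    ψ L p q ∈ ball (0 : E m) 4 ∧ L.φ p (ψ L p q) = q := by
  obtain ⟨y, hy, rfl⟩ := h.onto p q hq
  rw [ψ_φ h hy]
  exact ⟨hy, rfl⟩

theorem cont_ψ (h : Ok0 L) (p : M) : Continuous (ψ L p) :=
  (ContinuousLinearMap.continuous _).comp
    ((LipschitzWith.of_dist_le_mul (K := 1) (f := L.x) fun a b => by
      simpa [dist_eq_norm] using h.dx b a).continuous.sub continuous_const)

theorem cont_φ (h : Ok0 L) (p : M) : ContinuousOn (L.φ p) (ball 0 4) :=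
  (LipschitzOnWith.of_dist_le_mul (K := 2) fun y hy z hz => by
    simpa [dist_eq_norm] using h.dφ p y hy z hz).continuousOn

theorem b14 : ball (0 : E m) 1 ⊆ ball 0 4 := ball_subset_ball (by norm_num)

theorem image_eq (h : Ok0 L) (p : M) {s : Set (E m)} (hs : s ⊆ ball 0 1) :
    L.φ p '' s = ball p 2 ∩ ψ L p ⁻¹' s := by
  refine Subset.antisymm ?_ fun q hq => ⟨_, hq.2, (φ_ψ h hq.1).2⟩
  rintro _ ⟨y, hy, rfl⟩
  refine ⟨?_, by rwa [mem_preimage, ψ_φ h (b14 (hs hy))]⟩
  have h1 := h.dφ p y (b14 (hs hy)) 0 (mem_ball_self four_pos)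
  have h2 := mem_ball_zero_iff.1 (hs hy)
  rw [h.φ0, sub_zero] at h1
  rw [mem_ball]
  linarith

theorem d_xφ (h : Ok0 L) (p : M) {y : E m} (hy : y ∈ ball (0 : E m) 4) :
    HasFDerivAt (fun z => L.x (L.φ p z)) (dA (L.L p) (L.N p) (∇ (L.h p) y)) y := by
  have h1 : HasFDerivAt (L.h p) (innerSL ℝ (∇ (L.h p) y)) y :=
    (((h.hs p).contDiffAt (isOpen_ball.mem_nhds hy)).differentiableAt
      (by simp)).hasGradientAt.hasFDerivAt
  refine ((((L.L p).toContinuousLinearMap.hasFDerivAt (x := y)).const_add (L.x p)).add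
    (h1.smul_const (L.N p))).congr_of_eventuallyEq ?_
  filter_upwards [isOpen_ball.mem_nhds hy] with z hz using h.xφ p z hz

/-- the area element -/
def W (L : Leaf m M) (p : M) (y : E m) : ENNReal := ENNReal.ofReal √(1 + ‖∇ (L.h p) y‖ ^ 2)

/-- the differential of the change of charts -/
def dT (L : Leaf m M) (p q : M) (y : E m) : E m →L[ℝ] E m :=
  ContinuousLinearMap.adjoint (L.L q).toContinuousLinearMap ∘L dA (L.L p) (L.N p) (∇ (L.h p) y)

theorem d_T (h : Ok0 L) (p q : M) {y : E m} (hy : y ∈ ball (0 : E m) 4) :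
    HasFDerivAt (fun z => ψ L q (L.φ p z)) (dT L p q y) y :=
  (ContinuousLinearMap.hasFDerivAt _).comp y ((d_xφ h p hy).sub_const (L.x q))

theorem jac (h : Ok0 L) (p q : M) {y : E m} (hy : y ∈ ball (0 : E m) 4)
    (hq : L.φ p y ∈ ball q 2) :
    ENNReal.ofReal |(dT L p q y).det| * W L q (ψ L q (L.φ p y)) = W L p y := by
  have h1 := (d_xφ h q (φ_ψ h hq).1).comp y (d_T h p q hy)
  have h2 : (fun z => L.x (L.φ p z)) =ᶠ[𝓝 y]
      (fun z => L.x (L.φ q z)) ∘ fun z => ψ L q (L.φ p z) := by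
    filter_upwards [((cont_φ h p).continuousAt (isOpen_ball.mem_nhds hy)).preimage_mem_nhds
      (isOpen_ball.mem_nhds hq)] with z hz
    simp only [Function.comp, (φ_ψ h hz).2]
  have h3 := (d_xφ h p hy).unique (h1.congr_of_eventuallyEq h2)
  have h4 := normDet_dA (h.N1 p) (h.NL p) (∇ (L.h p) y)
  rw [h3, ContinuousLinearMap.toLinearMap_comp, LinearMap.normDet_comp_of_finrank_eq _ _ rfl,
    normDet_dA (h.N1 q) (h.NL q), LinearMap.normDet_eq_abs_det] at h4
  rw [W, W, ← h4, ← ENNReal.ofReal_mul (abs_nonneg _), mul_comm]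

theorem chg (h : Ok0 L) (p q : M) {s : Set (E m)} (hs : MeasurableSet s) (h4 : s ⊆ ball 0 4)
    (hq : ∀ y ∈ s, L.φ p y ∈ ball q 2) :
    ∫⁻ y in L.φ q ⁻¹' (L.φ p '' s) ∩ ball 0 4, W L q y = ∫⁻ y in s, W L p y := by
  have h1 : L.φ q ⁻¹' (L.φ p '' s) ∩ ball 0 4 = (fun z => ψ L q (L.φ p z)) '' s := by
    refine Subset.antisymm ?_ ?_
    · rintro z ⟨⟨y, hy, e⟩, hz⟩
      exact ⟨y, hy, by simp only [e, ψ_φ h hz]⟩
    · rintro _ ⟨y, hy, rfl⟩
      exact ⟨⟨y, hy, (φ_ψ h (hq y hy)).2.symm⟩, (φ_ψ h (hq y hy)).1⟩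
  rw [h1, lintegral_image_eq_lintegral_abs_det_fderiv_mul volume hs
    (fun y hy => (d_T h p q (h4 hy)).hasFDerivWithinAt) fun y hy z hz e => ?_]
  · exact setLIntegral_congr_fun hs fun y hy => jac h p q (h4 hy) (hq y hy)
  · have e1 : L.φ p y = L.φ p z := by
      rw [← (φ_ψ h (hq y hy)).2, ← (φ_ψ h (hq z hz)).2]
      exact congrArg _ e
    rw [← ψ_φ h (p := p) (h4 hy), e1, ψ_φ h (h4 hz)]

/-- the area measure of one disc -/
def ν (L : Leaf m M) (q : M) : Measure M :=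
  (((volume : Measure (E m)).restrict (ball 0 4)).withDensity (W L q)).map (L.φ q)

theorem ν_apply [BorelSpace M] (h : Ok0 L) (q : M) {S : Set M} (hS : MeasurableSet S) :
    ν L q S = ∫⁻ y in L.φ q ⁻¹' S ∩ ball 0 4, W L q y := by
  rw [ν, Measure.map_apply_of_aemeasurable
    (((cont_φ h q).aemeasurable measurableSet_ball).mono_ac (withDensity_absolutelyContinuous _ _))
    hS, withDensity_apply', Measure.restrict_restrict' measurableSet_ball]

end MuA

open MuA in
theorem mu : MU := by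
  intro m M _ _ _ _ L h
  rcases isEmpty_or_nonempty M with hM | hM
  · exact ⟨0, h.N1, h.NL, h.φ0, h.xφ, h.Nφ, h.hs, h.h1, h.h2, h.mn, h.dx, h.dφ, h.onto,
      fun p => isEmptyElim p⟩
  obtain ⟨c, hc⟩ := TopologicalSpace.exists_dense_seq M
  let A : ℕ → Set M := disjointed fun j => ball (c j) 2
  have hA : ∀ j, MeasurableSet (A j) := MeasurableSet.disjointed fun j => measurableSet_ball
  have hU : ⋃ j, A j = univ := by
    rw [iUnion_disjointed]
    refine eq_univ_of_forall fun q => ?_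
    obtain ⟨j, hj⟩ := hc.exists_dist_lt q two_pos
    exact mem_iUnion.2 ⟨j, hj⟩
  refine ⟨Measure.sum fun j => (ν L (c j)).restrict (A j), h.N1, h.NL, h.φ0, h.xφ, h.Nφ, h.hs,
    h.h1, h.h2, h.mn, h.dx, h.dφ, h.onto, fun p s hs h1 => ?_⟩
  have hm : MeasurableSet (L.φ p '' s) := by
    rw [image_eq h p h1]
    exact measurableSet_ball.inter ((cont_ψ h p).measurable hs)
  let t : ℕ → Set (E m) := fun j => s ∩ L.φ p ⁻¹' A j
  have ht : ∀ j, MeasurableSet (t j) := fun j => by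
    have h2 := (MeasurableEmbedding.subtype_coe (s := ball (0 : E m) 4) measurableSet_ball
      ).measurableSet_image.2 ((cont_φ h p).domRestrict.measurable (hA j))
    have h3 : t j = s ∩ Subtype.val '' ((ball (0 : E m) 4).domRestrict (L.φ p) ⁻¹' A j) := by
      ext y
      exact ⟨fun k => ⟨k.1, ⟨y, b14 (h1 k.1)⟩, k.2, rfl⟩, fun ⟨k, z, hz, e⟩ => ⟨k, e ▸ hz⟩⟩
    rw [h3]
    exact hs.inter h2
  have hd : Pairwise (Function.onFun Disjoint t) := fun i j hij =>
    ((disjoint_disjointed _ hij).preimage (L.φ p)).mono inter_subset_right inter_subset_right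
  have hs' : s = ⋃ j, t j := by
    rw [← inter_iUnion, ← preimage_iUnion, hU, preimage_univ, inter_univ]
  change (Measure.sum fun j => (ν L (c j)).restrict (A j)) (L.φ p '' s) = ∫⁻ y in s, W L p y
  rw [Measure.sum_apply _ hm]
  conv_rhs => rw [hs', lintegral_iUnion ht hd]
  refine tsum_congr fun j => ?_
  rw [Measure.restrict_apply hm, ν_apply h _ (hm.inter (hA j)), ← image_inter_preimage]
  exact chg h p (c j) (ht j) (fun y hy => b14 (h1 hy.1)) fun y hy =>
    disjointed_subset (fun j => ball (c j) 2) j hy.2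

end Vale.Agent.P134U
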