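import Vale.Agent.P134U.Defs

/-!
# The row PRE: the ultraproduct of systems of discs
-/

open MeasureTheory Metric Set Filter Topology
open scoped ContDiff RealInnerProductSpace Gradient

set_option linter.unusedVariables false

noncomputable section

namespace Vale.Agent.P134U

open Vale.Agent.P134L (E)
open Vale.Agent.P134G (Sh Seq d2 J mse)

namespace PreA

variable {m : ℕ} {s : ℕ → Sh m} {C : ℝ} {U : Ultrafilter ℕ} {z : ℕ → E (m + 1)}
  {x N : E (m + 1)} {L : E m →ₗᵢ[ℝ] E (m + 1)} {h : E m → ℝ}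

theorem ulim {n : ℕ} {v : ℕ → E n} {R : ℝ} (h : ∀ᶠ k in U, ‖v k‖ ≤ R) :
    ∃ a, ‖a‖ ≤ R ∧ Tendsto v U (𝓝 a) := by
  obtain ⟨a, h1, h2⟩ := (isCompact_closedBall (0 : E n) R).ultrafilter_le_nhds (U.map v)
    (le_principal_iff.2 (h.mono fun k hk => mem_closedBall_zero_iff.2 hk))
  exact ⟨a, mem_closedBall_zero_iff.1 h1, h2⟩

theorem ulimL (A : ℕ → E m →ₗᵢ[ℝ] E (m + 1)) :
    ∃ L : E m →ₗᵢ[ℝ] E (m + 1), ∀ y, Tendsto (fun k => A k y) U (𝓝 (L y)) := by
  choose l _ hl using fun y => ulim (U := U) (v := fun k => A k y) (R := ‖y‖)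
    (Eventually.of_forall fun k => ((A k).norm_map y).le)
  refine ⟨⟨⟨⟨l, fun a b => ?_⟩, fun c a => ?_⟩, fun a => ?_⟩, hl⟩
  · exact tendsto_nhds_unique (hl _) (by simpa only [map_add] using (hl a).add (hl b))
  · exact tendsto_nhds_unique (hl _) (by simpa only [map_smul, RingHom.id_apply] using (hl a).const_smul c)
  · exact tendsto_nhds_unique (hl a).norm (by simp)

theorem tgrad {f : ℕ → E m → ℝ} {g : E m → ℝ} {y : ℕ → E m} {a : E m}
    (h : Tendsto (fun k => fderiv ℝ (f k) (y k)) U (𝓝 (fderiv ℝ g a))) :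
    Tendsto (fun k => ∇ (f k) (y k)) U (𝓝 (∇ g a)) :=
  ((InnerProductSpace.toDual ℝ (E m)).symm.continuous.tendsto _).comp h

theorem td2 {f : ℕ → E m → ℝ} {g : E m → ℝ} {a : E m}
    (h : Tendsto (fun k => fderiv ℝ (fderiv ℝ (f k)) a) U (𝓝 (fderiv ℝ (fderiv ℝ g) a))) (i j) :
    Tendsto (fun k => d2 (f k) a i j) U (𝓝 (d2 g a i j)) :=
  ((by fun_prop : Continuous fun T : E m →L[ℝ] E m →L[ℝ] ℝ =>
    T (P134G.ee i) (P134G.ee j)).tendsto _).comp h

theorem ngrad (g : E m → ℝ) (a : E m) : ‖∇ g a‖ = ‖fderiv ℝ g a‖ :=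
  (InnerProductSpace.toDual ℝ (E m)).symm.norm_map _

/-- the properties of the limit graph -/
structure Gr (h : E m → ℝ) : Prop where
  sm : ContDiffOn ℝ ∞ h (ball 0 4)
  h0 : h 0 = 0
  d0 : ∇ h 0 = 0
  h1 : ∀ y ∈ ball (0 : E m) 4, ‖fderiv ℝ h y‖ ≤ 1 / 10
  h2 : ∀ y ∈ ball (0 : E m) 4, ‖fderiv ℝ (fderiv ℝ h) y‖ ≤ 1
  mn : ∑ i, d2 h 0 i i = 0

theorem exh (c2 : C2) (rg : RG) (good : ∀ η > 0, ∀ᶠ k in U, (s k).At (z k) C η) :
    ∃ g, Gr g ∧ Cv U (fun k => (s k).h (z k)) g := by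
  have g1 := good 1 one_pos
  obtain ⟨g, hg, cv⟩ := c2 m U (fun k => (s k).h (z k)) C (g1.mono fun k a =>
    ⟨a.sm, a.h0, fun y hy => ⟨a.b1 y hy, a.b2 y hy, a.hol y hy⟩⟩)
  have t1 := fun y (hy : y ∈ ball (0 : E m) 4) => tgrad (y := fun _ => y) (cv.c1.tendsto_at hy)
  have t2 := fun y (hy : y ∈ ball (0 : E m) 4) => td2 (cv.c2.tendsto_at hy)
  have b1 : ∀ y ∈ ball (0 : E m) 4, ‖∇ g y‖ ≤ 1 / 10 := fun y hy =>
    le_of_tendsto (t1 y hy).norm (g1.mono fun k a => a.b1 y hy)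
  have b2 : ∀ y ∈ ball (0 : E m) 4, ‖fderiv ℝ (fderiv ℝ g) y‖ ≤ 1 / 10 := fun y hy =>
    le_of_tendsto (Tendsto.norm (E := E m →L[ℝ] E m →L[ℝ] ℝ) (cv.c2.tendsto_at hy))
      (g1.mono fun k a => a.b2 y hy)
  have ms : ∀ y ∈ ball (0 : E m) 4, mse g y = 0 := fun y hy => by
    have c : ∀ i, Tendsto (fun k => ∇ ((s k).h (z k)) y i) U (𝓝 (∇ g y i)) := fun i =>
      ((EuclideanSpace.proj (𝕜 := ℝ) i).continuous.tendsto _).comp (t1 y hy)
    have t : Tendsto (fun k => mse ((s k).h (z k)) y) U (𝓝 (mse g y)) :=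
      (tendsto_finsetSum _ fun i _ => t2 y hy i i).sub ((tendsto_finsetSum _ fun i _ =>
        tendsto_finsetSum _ fun j _ => ((c i).mul (c j)).mul (t2 y hy i j)).div
        (((t1 y hy).norm.pow 2).const_add 1) (by positivity))
    exact abs_nonpos_iff.1 (le_of_forall_pos_le_add fun η hη => by
      simpa using le_of_tendsto t.abs ((good η hη).mono fun k a => a.mc y hy))
  have z4 : (0 : E m) ∈ ball (0 : E m) 4 := mem_ball_self four_pos
  have d0 : ∇ g 0 = 0 := tendsto_nhds_unique (t1 0 z4)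
    (tendsto_const_nhds.congr' (g1.mono fun k a => a.d0.symm))
  refine ⟨g, ⟨rg m g C hg fun y hy => ⟨b1 y hy, b2 y hy, ms y hy, fun w hw i j => le_of_tendsto
    ((t2 y hy i j).sub (t2 w hw i j)).abs (g1.mono fun k a => a.hol y hy w hw i j)⟩,
    tendsto_nhds_unique (cv.c0.tendsto_at z4)
      (tendsto_const_nhds.congr' (g1.mono fun k a => a.h0.symm)), d0,
    fun y hy => ngrad g y ▸ b1 y hy, fun y hy => (b2 y hy).trans (by norm_num), ?_⟩, cv⟩
  simpa [mse, d0] using ms 0 z4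

theorem tL (a : Ap s C U z x N L h) {y : ℕ → E m} {w : E m} (t : Tendsto y U (𝓝 w)) :
    Tendsto (fun k => (s k).L (z k) (y k)) U (𝓝 (L w)) := by
  have e : ∀ k, (s k).L (z k) (y k) = (s k).L (z k) (y k - w) + (s k).L (z k) w := fun k => by
    rw [← map_add, sub_add_cancel]
  simp only [e]
  rw [← zero_add (L w)]
  refine Tendsto.add (tendsto_zero_iff_norm_tendsto_zero.2 ?_) (a.tL w)
  simpa only [LinearIsometry.norm_map] using tendsto_iff_norm_sub_tendsto_zero.1 t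

/-- limits of points in the discs -/
theorem tX (a : Ap s C U z x N L h) (g : Gr h) {y : ℕ → E m} {w : E m}
    (hy : ∀ᶠ k in U, y k ∈ ball (0 : E m) 4) (hw : w ∈ ball (0 : E m) 4) (t : Tendsto y U (𝓝 w)) :
    Tendsto (fun k => (s k).X (z k) (y k)) U (𝓝 (x + L w + h w • N)) ∧
    Tendsto (fun k => (s k).N ((s k).X (z k) (y k))) U (𝓝 ((J h w)⁻¹ • (N - L (∇ h w)))) := by
  have t' : Tendsto y U (𝓝[ball 0 4] w) := tendsto_nhdsWithin_iff.2 ⟨t, hy⟩
  have t0 := a.th.c0.tendsto_comp (g.sm.continuousOn w hw) t'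
  have t1 := tgrad (a.th.c1.tendsto_comp
    (g.sm.continuousOn_fderiv_of_isOpen isOpen_ball (by simp) w hw) t')
  refine ⟨(a.tx.add (tL a t)).add (t0.smul a.tN), Tendsto.congr'
    (((a.good 1 one_pos).and hy).mono fun k b => (b.1.nor _ b.2).symm) ?_⟩
  exact (((t1.norm.pow 2).const_add 1).sqrt.inv₀ (by positivity)).smul (a.tN.sub (tL a t1))

theorem pyth {s : Sh m} {p : E (m + 1)} {η : ℝ} (a : s.At p C η) (y w : E m) :
    ‖y - w‖ ≤ ‖s.X p y - s.X p w‖ := by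
  have e : s.X p y - s.X p w = s.L p (y - w) + (s.h p y - s.h p w) • s.N p := by
    simp only [Sh.X, map_sub, sub_smul]; abel
  refine le_of_sq_le_sq ?_ (norm_nonneg _)
  rw [e, norm_add_sq_real, inner_smul_right, real_inner_comm, a.NL, LinearIsometry.norm_map]
  nlinarith [sq_nonneg ‖(s.h p y - s.h p w) • s.N p‖]

end PreA

open PreA in
/-- **PRE** -/
theorem pre : PRE := by
  intro c2 rg rc m s C U hs hU
  classical
  let B := {z : ℕ → E (m + 1) // (∀ᶠ k in U, z k ∈ (s k).S) ∧ ∃ R, ∀ᶠ k in U, ‖z k‖ ≤ R}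
  have good : ∀ p : B, ∀ η > 0, ∀ᶠ k in U, (s k).At (p.1 k) C η := fun p η hη => by
    obtain ⟨R, hR⟩ := p.2.2
    filter_upwards [p.2.1, hR, (hs.ok R η hη).filter_mono hU] with k a b c using c _ a b
  choose x hx using fun p : B => p.2.2.elim fun R hR => (ulim hR).imp fun a b => b.2
  choose N _ hN using fun p : B => ulim (v := fun k => (s k).N (p.1 k)) (R := 1)
    ((good p 1 one_pos).mono fun k a => a.N1.le)
  choose L hL using fun p : B => ulimL (U := U) fun k => (s k).L (p.1 k)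
  choose h hg hh using fun p : B => exh c2 rg (good p)
  have ap : ∀ p, Ap s C U p.1 (x p) (N p) (L p) (h p) := fun p =>
    ⟨p.2.1, good p, hx p, hN p, hL p, hh p⟩
  have tc := fun p y (hy : y ∈ ball (0 : E m) 4) => tX (ap p) (hg p) (y := fun _ => y)
    (Eventually.of_forall fun _ => hy) hy tendsto_const_nhds
  let φ : B → E m → B := fun p y => if hy : y ∈ ball (0 : E m) 4 then
    ⟨fun k => (s k).X (p.1 k) y, (good p 1 one_pos).mono fun k a => a.mem y hy, _,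
      ((tc p y hy).1.norm.eventually (gt_mem_nhds (lt_add_one _))).mono fun k a => a.le⟩ else p
  have eφ : ∀ p, ∀ y ∈ ball (0 : E m) 4, (φ p y).1 = fun k => (s k).X (p.1 k) y :=
    fun p y hy => by simp only [φ, dif_pos hy]
  have xφ : ∀ p, ∀ y ∈ ball (0 : E m) 4, x (φ p y) = x p + L p y + h p y • N p := fun p y hy =>
    tendsto_nhds_unique (hx _) (by rw [eφ p y hy]; exact (tc p y hy).1)
  have Nφ : ∀ p, ∀ y ∈ ball (0 : E m) 4, N (φ p y) = (J (h p) y)⁻¹ • (N p - L p (∇ (h p) y)) :=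
    fun p y hy => tendsto_nhds_unique (hN _) (by rw [eφ p y hy]; exact (tc p y hy).2)
  refine ⟨B, ⟨x, N, L, h, φ, fun p q => Nr s U p.1 q.1⟩, Subtype.val,
    ⟨fun _ => 0, Eventually.of_forall hs.zero, 0, by simp⟩, ⟨fun p => ?_, fun p v => ?_,
    fun p => (hg p).h0, fun p => (hg p).d0, xφ, fun p y hy => ?_, fun p => (hg p).sm,
    fun p => (hg p).h1, fun p => (hg p).h2, fun p => (hg p).mn, fun p => ?_, fun p y hy => ?_,
    ?_, ?_⟩, rfl, ap, fun p q => Iff.rfl⟩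
  · exact tendsto_nhds_unique (hN p).norm
      (tendsto_const_nhds.congr' ((good p 1 one_pos).mono fun k a => a.N1.symm))
  · exact tendsto_nhds_unique ((hN p).inner (hL p v))
      (tendsto_const_nhds.congr' ((good p 1 one_pos).mono fun k a => (a.NL v).symm))
  · have : J (h p) y ≠ 0 := by unfold J; positivity
    show J (h p) y • N (φ p y) = _
    rw [Nφ p y hy, smul_inv_smul₀ this]
  · exact ⟨1, by norm_num, (good p 1 one_pos).mono fun k a =>
      ⟨0, mem_ball_self one_pos, by simp [Sh.X, a.h0]⟩⟩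
  · have := mem_ball_zero_iff.1 hy
    exact ⟨(‖y‖ + 4) / 2, by linarith, Eventually.of_forall fun k =>
      ⟨y, mem_ball_zero_iff.2 (by linarith), (congrFun (eφ p y hy) k).symm⟩⟩
  · rintro p q ⟨r, hr, hq⟩
    have ex : ∀ k, ∃ y : E m, q.1 k ∈ (s k).X (p.1 k) '' ball 0 r →
        ‖y‖ < r ∧ (s k).X (p.1 k) y = q.1 k := fun k => by
      by_cases a : q.1 k ∈ (s k).X (p.1 k) '' ball 0 r
      · obtain ⟨y, h1, h2⟩ := a
        exact ⟨y, fun _ => ⟨mem_ball_zero_iff.1 h1, h2⟩⟩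
      · exact ⟨0, fun b => (a b).elim⟩
    choose y hy using ex
    obtain ⟨w, w1, w2⟩ := ulim (v := y) (R := r) (hq.mono fun k a => (hy k a).1.le)
    have w3 : w ∈ ball (0 : E m) 4 := mem_ball_zero_iff.2 (w1.trans_lt hr)
    obtain ⟨t1, t2⟩ := tX (ap p) (hg p)
      (hq.mono fun k a => mem_ball_zero_iff.2 ((hy k a).1.trans hr)) w3 w2
    refine ⟨w, w3, (tendsto_nhds_unique (hx q) (t1.congr' (hq.mono fun k a => (hy k a).2))).trans
      (xφ p w w3).symm, (tendsto_nhds_unique (hN q) (t2.congr' (hq.mono fun k a => ?_))).trans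
      (Nφ p w w3).symm⟩
    simp only [(hy k a).2]
  · rintro a p z w ⟨r₁, h₁, az⟩ ⟨r₂, h₂, aw⟩ ⟨r₃, h₃, pz⟩ lt
    refine ⟨7 / 2, by norm_num, ?_⟩
    filter_upwards [az, aw, pz, good p 1 one_pos, good a 1 one_pos,
      (((hx z).sub (hx p)).norm.add ((hx z).sub (hx w)).norm).eventually (gt_mem_nhds lt)]
      with k ⟨y, y1, y2⟩ ⟨v, v1, v2⟩ k3 gp ga k6
    have := pyth ga y v
    rw [y2, v2] at this
    obtain ⟨u, u1, -, u3⟩ := rc m (s k) _ _ C 1 gp ga y (ball_subset_ball h₁.le y1) v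
      (ball_subset_ball h₂.le v1) (y2 ▸ image_mono (ball_subset_ball h₃.le) k3)
      (by rw [y2]; linarith [norm_nonneg (z.1 k - p.1 k)])
    exact ⟨u, mem_ball_zero_iff.2 (by linarith), u3.trans v2⟩

end Vale.Agent.P134U
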