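import Vale.Agent.P134U.Defs

/-!
# P134U: the theorem of Hopf and Rinow
-/

open Metric Set Filter Topology

noncomputable section

namespace Vale.Agent.P134U

/-- the points reached from `o` in `j` steps -/
def prK {M : Type} [MetricSpace M] (o : M) : ℕ → Set M
  | 0 => {o}
  | j + 1 => {z | infDist z (prK o j) ≤ 1 / 2}

theorem prop : PROP := by
  intro M _ hc hx
  rcases isEmpty_or_nonempty M with hM | ⟨⟨o⟩⟩
  · infer_instance
  have step : ∀ j z w, z ∈ prK o j → dist w z ≤ 1 / 2 → w ∈ prK o (j + 1) := fun j z w hz hd =>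
    (infDist_le_dist_of_mem hz).trans hd
  have mono : Monotone (prK o) := monotone_nat_of_le_succ fun j z hz => step j z z hz (by simp)
  have mo : ∀ j, o ∈ prK o j := fun j => mono (Nat.zero_le j) rfl
  have cp : ∀ j, IsCompact (prK o j) := fun j => by
    induction j with
    | zero => exact isCompact_singleton
    | succ j ih =>
      obtain ⟨t, -, tf, ht⟩ := finite_approx_of_totallyBounded ih.totallyBounded (1 / 4)
        (by norm_num)
      refine (tf.isCompact_biUnion fun c _ => hc c).of_isClosed_subset
        (isClosed_le (continuous_infDist_pt _) continuous_const) fun z hz => ?_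
      obtain ⟨y, hy, hd⟩ := (infDist_lt_iff ⟨o, mo j⟩).1
        (lt_of_le_of_lt (show infDist z (prK o j) ≤ 1 / 2 from hz) (by norm_num : (1 / 2 : ℝ) < 3 / 4))
      obtain ⟨c, c1, c2⟩ := mem_iUnion₂.1 (ht hy)
      refine mem_iUnion₂.2 ⟨c, c1, mem_closedBall.2 ?_⟩
      linarith [dist_triangle z y c, mem_ball.1 c2]
  set t : ℕ → M → ℝ := fun j z => min (infDist z (prK o j)) (1 / 4) with ht
  have t1 : ∀ j z w, |t j z - t j w| ≤ dist z w := fun j z w => by
    refine (abs_min_sub_min_le_max _ _ _ _).trans (max_le ?_ (by simp))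
    rw [abs_sub_le_iff]
    constructor
    · linarith [infDist_le_infDist_add_dist (x := z) (y := w) (s := prK o j)]
    · linarith [infDist_le_infDist_add_dist (x := w) (y := z) (s := prK o j), dist_comm z w]
  have t2 : ∀ j z w, z ∉ prK o (j + 1) → dist z w ≤ 1 / 4 → t j w = 1 / 4 := fun j z w hz hd => by
    have h1 : ¬infDist z (prK o j) ≤ 1 / 2 := hz
    exact min_eq_right (by linarith [infDist_le_infDist_add_dist (x := z) (y := w) (s := prK o j)])
  have t3 : ∀ j z, z ∈ prK o j → t j z = 0 := fun j z hz => by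
    simp only [ht, infDist_zero_of_mem hz]
    norm_num
  have t4 : ∀ z w, dist z w ≤ 1 / 4 → ∃ a b : ℕ, ∀ j, j ≠ a → j ≠ b → t j z = t j w := by
    intro z w hd
    by_cases h : ∃ j, z ∈ prK o j
    · classical
      refine ⟨Nat.find h - 1, Nat.find h, fun j h1 h2 => ?_⟩
      rcases lt_or_gt_of_ne h2 with h3 | h3
      · have h4 : z ∉ prK o (j + 1) := Nat.find_min h (by omega)
        rw [t2 j z z h4 (by simp), t2 j z w h4 hd]
      · rw [t3 j z (mono h3.le (Nat.find_spec h)), t3 j w (mono h3
          (step _ z w (Nat.find_spec h) (by rw [dist_comm]; linarith)))]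
    · push Not at h
      exact ⟨0, 0, fun j _ _ => by rw [t2 j z z (h _) (by simp), t2 j z w (h _) hd]⟩
  refine ProperSpace.of_isCompact_closedBall_of_le 0 fun p R hR => ?_
  obtain ⟨J, hJ⟩ := exists_nat_gt (16 * (R + dist p o))
  refine (cp J).of_isClosed_subset isClosed_closedBall fun z hz => ?_
  by_contra hn
  have h1 := hx (fun z => (∑ j ∈ Finset.range J, t j z) / 2) (1 / 4) (by norm_num) (fun z w hd => by
    obtain ⟨a, b, hab⟩ := t4 z w hd
    rw [← sub_div, abs_div, abs_two, div_le_iff₀ two_pos, ← Finset.sum_sub_distrib]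
    refine (Finset.abs_sum_le_sum_abs _ _).trans ((Finset.sum_le_sum (g := fun j =>
      (if a = j then dist z w else 0) + if b = j then dist z w else 0) fun j _ => ?_).trans ?_)
    · have := t1 j z w
      have := dist_nonneg (x := z) (y := w)
      split_ifs with h1 h2 h2
      · linarith
      · linarith
      · linarith
      · rw [hab j (Ne.symm h1) (Ne.symm h2)]
        simp
    · have := dist_nonneg (x := z) (y := w)
      simp only [Finset.sum_add_distrib, Finset.sum_ite_eq]
      split_ifs <;> linarith) z o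
  have h2 : ∑ j ∈ Finset.range J, t j z = J * (1 / 4) := by
    rw [Finset.sum_congr rfl fun j hj => t2 j z z
      (fun h => hn (mono (Finset.mem_range.1 hj) h)) (by simp)]
    simp
  have h3 : ∑ j ∈ Finset.range J, t j o = 0 := Finset.sum_eq_zero fun j _ => t3 j o (mo j)
  simp only [h2, h3] at h1
  linarith [le_of_abs_le h1, dist_triangle z p o, mem_closedBall.1 hz]

end Vale.Agent.P134U
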