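import Vale.Agent.P134U.Defs

/-!
# The row PU: partitions of test functions
-/

open Metric Set

namespace Vale.Agent.P134U

/-- **PU** -/
theorem pu : PU := by
  intro m M _ _ _ _ G _ r r2 ψ hψ hc
  obtain ⟨t, -, ht, hs⟩ := finite_cover_balls_of_compact hc.isCompact (e := 1 / 32) (by norm_num)
  replace hs : ∀ q, ψ q ≠ 0 → ∃ x ∈ t, dist q x < 1 / 32 := fun q h => by
    simpa using hs (subset_tsupport _ h)
  clear hc
  induction t, ht using Set.Finite.induction_on generalizing ψ with
  | empty => exact ⟨0, Fin.elim0, Fin.elim0, fun i => i.elim0, fun i => i.elim0, fun q => by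
      by_contra h
      simpa using hs q (by simpa using h)⟩
  | @insert a t _ _ ih =>
    obtain ⟨χ, h1, -, h3, h4⟩ := r2.bump a (1 / 8) (by norm_num) (by norm_num)
    obtain ⟨n, p, f, k1, k2, k3⟩ := ih (fun q => ψ q * (1 - χ q))
      (fun q => r.mul (hψ q) (r.sub (r.smc 1 q) (h1 q))) fun q h => by
        obtain ⟨x, hx, k⟩ := hs q (left_ne_zero_of_mul h)
        rcases hx with rfl | hx
        · exact (h (by rw [h3 q (by linarith), sub_self, mul_zero])).elim
        · exact ⟨x, hx, k⟩
    refine ⟨n + 1, Fin.cons a p, Fin.cons (fun q => ψ q * χ q) f, fun i => ?_, fun i => ?_,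
      fun q => ?_⟩
    · exact Fin.cases (fun q => r.mul (hψ q) (h1 q)) k1 i
    · exact Fin.cases (fun q h => by simp [h4 q h]) k2 i
    · simp only [Fin.sum_univ_succ, Fin.cons_zero, Fin.cons_succ, ← k3 q]; ring

end Vale.Agent.P134U
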