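import Vale.Agent.P134U.Defs

/-!
# P134U, row QL: the limit of the integrals over one disc
-/

open MeasureTheory Metric Set Filter Topology
open scoped ContDiff RealInnerProductSpace Gradient

noncomputable section

namespace Vale.Agent.P134U

open Vale.Agent.P134L (E Leaf Geo Calc Chart ForL)
open Vale.Agent.P134G (Sh J ee)

namespace Qlp

variable {m : ℕ}

/-- frames -/
abbrev Fm (m : ℕ) := E (m + 1) × (E m →L[ℝ] E (m + 1))

/-- two-jets in a frame -/
abbrev Jt (m : ℕ) := (E (m + 1) × Fm m) × (E m × ℝ) × (E m →L[ℝ] ℝ) × (E m →L[ℝ] E m →L[ℝ] ℝ)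

/-- the vector of a linear form -/
def gr (p : E m →L[ℝ] ℝ) : E m := (InnerProductSpace.toDual ℝ (E m)).symm p

theorem gr_sm : ContDiff ℝ ∞ (gr (m := m)) := (InnerProductSpace.toDual ℝ (E m)).symm.contDiff

/-- the unit normal of a graph -/
def nu (q : Fm m × (E m →L[ℝ] ℝ)) : E (m + 1) :=
  (√(1 + ‖gr q.2‖ ^ 2))⁻¹ • (q.1.1 - q.1.2 (gr q.2))

theorem nu_sm : ContDiff ℝ 1 (nu (m := m)) := by
  have h : ContDiff ℝ 1 fun q : Fm m × (E m →L[ℝ] ℝ) => gr q.2 :=
    (gr_sm.of_le (by simp)).comp contDiff_snd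
  refine (((contDiff_const.add (h.norm_sq ℝ)).sqrt fun q => by positivity).inv
    fun q => by positivity).smul (contDiff_fst.fst.sub (contDiff_fst.snd.clm_apply h))

/-- the second fundamental form -/
def a2 (a : Fm m) (p : E m →L[ℝ] ℝ) (D : E m →L[ℝ] E m →L[ℝ] ℝ) : ℝ :=
  ∑ i, ‖fderiv ℝ nu (a, p) (0, D (a.2.adjoint (ee i - nu (a, p) i • nu (a, p))))‖ ^ 2

/-- the integrand -/
def ph (F H : E (m + 1) → ℝ) (a c : ℝ) (j : Jt m) : ℝ :=
  (F (j.1.1 + j.1.2.2 j.2.1.1 + j.2.1.2 • j.1.2.1) + (c - a * a2 j.1.2 j.2.2.1 j.2.2.2) *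
    H (j.1.1 + j.1.2.2 j.2.1.1 + j.2.1.2 • j.1.2.1)) * √(1 + ‖gr j.2.2.1‖ ^ 2)

theorem ph_cont {F H : E (m + 1) → ℝ} (hF : Continuous F) (hH : Continuous H) (a c : ℝ) :
    Continuous (ph F H a c) := by
  have h1 : Continuous fun j : Jt m => j.1.1 + j.1.2.2 j.2.1.1 + j.2.1.2 • j.1.2.1 :=
    (continuous_fst.fst.add (continuous_fst.snd.snd.clm_apply continuous_snd.fst.fst)).add
      (continuous_snd.fst.snd.smul continuous_fst.snd.fst)
  have h2 : Continuous fun j : Jt m => (j.1.2, j.2.2.1) := by fun_prop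
  have h3 : Continuous fun j : Jt m => nu (j.1.2, j.2.2.1) := nu_sm.continuous.comp h2
  have h4 : Continuous fun j : Jt m => j.1.2.2.adjoint :=
    ContinuousLinearMap.adjoint.continuous.comp (by fun_prop)
  have h5 : Continuous fun j : Jt m => a2 j.1.2 j.2.2.1 j.2.2.2 := by
    refine continuous_finsetSum _ fun i _ => (Continuous.norm ?_).pow 2
    refine ((nu_sm.continuous_fderiv one_ne_zero).comp h2).clm_apply (continuous_const.prodMk ?_)
    refine Continuous.clm_apply (by fun_prop) (h4.clm_apply (continuous_const.sub ?_))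
    exact ((EuclideanSpace.proj i).continuous.comp h3).smul h3
  exact ((hF.comp h1).add ((continuous_const.sub (continuous_const.mul h5)).mul (hH.comp h1))).mul
    (continuous_const.add ((gr_sm.continuous.comp (by fun_prop)).norm.pow 2)).sqrt

/-- the jet of a graph -/
def jt (x : E (m + 1)) (a : Fm m) (h : E m → ℝ) (y : E m) : Jt m :=
  ((x, a), (y, h y), fderiv ℝ h y, fderiv ℝ (fderiv ℝ h) y)

theorem jt_cont (x : E (m + 1)) (a : Fm m) {h : E m → ℝ} (hh : ContDiffOn ℝ ∞ h (ball 0 4)) :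
    ContinuousOn (jt x a h) (closedBall 0 1) := by
  have h1 : ContDiffOn ℝ ∞ (fderiv ℝ h) (ball 0 4) := hh.fderiv_of_isOpen isOpen_ball (by simp)
  have h2 : ContDiffOn ℝ ∞ (fderiv ℝ (fderiv ℝ h)) (ball 0 4) :=
    h1.fderiv_of_isOpen isOpen_ball (by simp)
  exact (continuousOn_const.prodMk ((continuousOn_id.prodMk hh.continuousOn).prodMk
    (h1.continuousOn.prodMk h2.continuousOn))).mono (closedBall_subset_ball (by norm_num))

theorem d_nu (a : Fm m) {h : E m → ℝ} (hh : ContDiffOn ℝ ∞ h (ball 0 4)) {y : E m}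
    (hy : y ∈ ball (0 : E m) 4) : HasFDerivAt (fun y => nu (a, fderiv ℝ h y))
      (fderiv ℝ nu (a, fderiv ℝ h y) ∘L (0 : E m →L[ℝ] Fm m).prod (fderiv ℝ (fderiv ℝ h) y)) y := by
  have h1 : ContDiffOn ℝ ∞ (fderiv ℝ h) (ball 0 4) := hh.fderiv_of_isOpen isOpen_ball (by simp)
  have h2 := ((h1.contDiffAt (isOpen_ball.mem_nhds hy)).differentiableAt (by simp)).hasFDerivAt
  exact (nu_sm.differentiable one_ne_zero _).hasFDerivAt.comp y ((hasFDerivAt_const a y).prodMk h2)

theorem a2_sh {s : Sh m} {p : E (m + 1)} {C η : ℝ} (h : s.At p C η) {y : E m}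
    (hy : y ∈ ball (0 : E m) 4) : s.A2 p y = a2 (s.N p, (s.L p).toContinuousLinearMap)
      (fderiv ℝ (s.h p) y) (fderiv ℝ (fderiv ℝ (s.h p)) y) := by
  have e : (fun y => s.N (s.X p y)) =ᶠ[𝓝 y]
      fun y => nu ((s.N p, (s.L p).toContinuousLinearMap), fderiv ℝ (s.h p) y) := by
    filter_upwards [isOpen_ball.mem_nhds hy] with z hz using h.nor z hz
  rw [Sh.A2, e.fderiv_eq, (d_nu _ h.sm hy).fderiv, show s.N (s.X p y) = _ from e.eq_of_nhds]
  rfl

section leaf

variable {M : Type} [MetricSpace M] [MeasurableSpace M] {L : Leaf m M}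

theorem adj_x (hL : L.Ok) (p : M) {z : E m} (hz : z ∈ ball (0 : E m) 4) :
    (L.L p).toContinuousLinearMap.adjoint (L.x (L.φ p z) - L.x p) = z := by
  refine ext_inner_left ℝ fun v => ?_
  rw [ContinuousLinearMap.adjoint_inner_right, hL.xφ p z hz, add_assoc, add_sub_cancel_left,
    inner_add_right, inner_smul_right]
  have := hL.NL p v
  rw [real_inner_comm] at this
  simp [this]

theorem nor_eq (hL : L.Ok) (p : M) {z : E m} (hz : z ∈ ball (0 : E m) 4) :
    L.N (L.φ p z) = nu ((L.N p, (L.L p).toContinuousLinearMap), fderiv ℝ (L.h p) z) := by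
  have : (0 : ℝ) < √(1 + ‖∇ (L.h p) z‖ ^ 2) := by positivity
  exact (eq_inv_smul_iff₀ this.ne').2 (hL.Nφ p z hz)

theorem del_eq (hL : L.Ok) (C : Calc L.geo) (ch : Chart L) (p : M) {y : E m}
    (hy : y ∈ ball (0 : E m) 1) {u : M → ℝ} {w : E m → ℝ} {w' : E m →L[ℝ] ℝ}
    (hw : HasFDerivAt w w' y) (h : ∀ z ∈ ball (0 : E m) 4, u (L.φ p z) = w z) (i : Fin (m + 1)) :
    L.geo.δ i u (L.φ p y) = w' ((L.L p).toContinuousLinearMap.adjoint
      (ee i - L.N (L.φ p y) i • L.N (L.φ p y))) := by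
  have y4 : y ∈ ball (0 : E m) 4 := ball_subset_ball (by norm_num) hy
  obtain ⟨T, hT⟩ : ∃ T, T = (L.L p).toContinuousLinearMap.adjoint := ⟨_, rfl⟩
  have e1 : ∀ z ∈ ball (0 : E m) 4, T (L.x (L.φ p z) - L.x p) = z := fun z hz => by
    rw [hT]; exact adj_x hL p hz
  have d1 : HasFDerivAt (fun w => T (w - L.x p)) T (L.x (L.φ p y)) :=
    T.hasFDerivAt.comp _ ((hasFDerivAt_id _).sub_const _)
  have d3 : HasFDerivAt (fun v => w (T (v - L.x p))) (w' ∘L T) (L.x (L.φ p y)) :=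
    HasFDerivAt.comp (g := w) _ (by rwa [e1 y y4]) d1
  have e3 : u =ᶠ[𝓝 (L.φ p y)] fun q => (fun v => w (T (v - L.x p))) (L.geo.x q) := by
    rw [← ch.opn p y hy]
    refine eventually_map.2 ?_
    filter_upwards [isOpen_ball.mem_nhds y4] with z hz
    change u (L.φ p z) = w (T (L.x (L.φ p z) - L.x p))
    rw [e1 z hz, h z hz]
  rw [C.cgr e3, C.amb d3.differentiableAt, ← hT]
  exact DFunLike.congr_fun d3.fderiv _

theorem a2_leaf (hL : L.Ok) (C : Calc L.geo) (ch : Chart L) (p : M) {y : E m}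
    (hy : y ∈ ball (0 : E m) 1) :
    L.geo.A2 (L.φ p y) = a2 (L.N p, (L.L p).toContinuousLinearMap)
      (fderiv ℝ (L.h p) y) (fderiv ℝ (fderiv ℝ (L.h p)) y) := by
  have y4 : y ∈ ball (0 : E m) 4 := ball_subset_ball (by norm_num) hy
  have d2 := d_nu (L.N p, (L.L p).toContinuousLinearMap) (hL.hs p) y4
  rw [Geo.A2, a2, ← nor_eq hL p y4]
  refine Finset.sum_congr rfl fun i _ => ?_
  rw [EuclideanSpace.real_norm_sq_eq]
  refine Finset.sum_congr rfl fun j _ => ?_
  rw [Geo.A, del_eq hL C ch p hy ((EuclideanSpace.proj (𝕜 := ℝ) j).hasFDerivAt.comp y d2)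
    fun z hz => congrArg (fun v : E (m + 1) => v j) (nor_eq hL p hz)]
  rfl

end leaf

theorem clm_lim {U : Filter ℕ} {T : ℕ → E m →L[ℝ] E (m + 1)} {S : E m →L[ℝ] E (m + 1)}
    (h : ∀ y, Tendsto (fun k => T k y) U (𝓝 (S y))) : Tendsto T U (𝓝 S) := by
  have e : ∀ R : E m →L[ℝ] E (m + 1), R = ∑ a, ContinuousLinearMap.smulRightL ℝ (E m) (E (m + 1))
      (EuclideanSpace.proj a) (R (ee a)) := fun R => by
    refine ContinuousLinearMap.ext fun v => ?_
    conv_lhs => rw [← (EuclideanSpace.basisFun (Fin m) ℝ).sum_repr v]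
    simp [map_sum]
  rw [e S, show T = _ from funext fun k => e (T k)]
  exact tendsto_finsetSum _ fun a _ => (ContinuousLinearMap.continuous _).continuousAt.tendsto.comp
    (h (ee a))

theorem unif {X Y : Type} [PseudoMetricSpace Y] [TopologicalSpace X] {U : Filter ℕ} {K : Set X}
    {f : ℕ → X → Y} {g : X → Y} {Φ : Y → ℝ} (hK : IsCompact K) (hg : ContinuousOn g K)
    (hΦ : Continuous Φ) (h : TendstoUniformlyOn f g U K) :
    TendstoUniformlyOn (fun k x => Φ (f k x)) (fun x => Φ (g x)) U K := fun _ hr =>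
  (h _ ((hK.image_of_continuousOn hg).uniformContinuousAt_of_continuousAt Φ
    (fun _ _ => hΦ.continuousAt) hr)).mono fun _ hk x hx => hk x hx ⟨x, hx, rfl⟩

theorem lim_int {U : Filter ℕ} {f : ℕ → E m → ℝ} {g : E m → ℝ}
    (hf : ∀ᶠ k in U, ContinuousOn (f k) (closedBall 0 1)) (hg : ContinuousOn g (closedBall 0 1))
    (h : TendstoUniformlyOn f g U (closedBall 0 1)) :
    Tendsto (fun k => ∫ y in ball (0 : E m) 1, f k y) U (𝓝 (∫ y in ball (0 : E m) 1, g y)) := by
  have hK := isCompact_closedBall (0 : E m) 1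
  rw [Metric.tendsto_nhds]
  intro ε hε
  have v0 : 0 < volume.real (ball (0 : E m) 1) + 1 := by positivity
  filter_upwards [hf, Metric.tendstoUniformlyOn_iff.1 h _ (div_pos hε v0)] with k h1 h2
  rw [dist_eq_norm, ← integral_sub ((h1.integrableOn_compact hK).mono_set ball_subset_closedBall)
    ((hg.integrableOn_compact hK).mono_set ball_subset_closedBall)]
  refine (norm_setIntegral_le_of_norm_le_const (C := ε / (volume.real (ball (0 : E m) 1) + 1))
    measure_ball_lt_top fun y hy => ?_).trans_lt ?_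
  · rw [← dist_eq_norm, dist_comm]
    exact (h2 y (ball_subset_closedBall hy)).le
  · rw [div_mul_eq_mul_div, div_lt_iff₀ v0]
    linarith

end Qlp

open Qlp in
/-- **QL** -/
theorem ql : QL := by
  intro m M _ _ _ _ L _ hL C ch s K U z p h F H a c hF hH
  have s4 : closedBall (0 : E m) 1 ⊆ ball 0 4 := closedBall_subset_ball (by norm_num)
  have cΦ := ph_cont hF hH a c
  have c0 := jt_cont (L.x p) (L.N p, (L.L p).toContinuousLinearMap) (hL.hs p)
  have t1 : Tendsto (fun k => (z k, (s k).N (z k), ((s k).L (z k)).toContinuousLinearMap)) U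
      (𝓝 (L.x p, L.N p, (L.L p).toContinuousLinearMap)) :=
    h.tx.prodMk_nhds (h.tN.prodMk_nhds (clm_lim h.tL))
  have t2 : TendstoUniformlyOn (fun k => jt (z k) ((s k).N (z k),
      ((s k).L (z k)).toContinuousLinearMap) ((s k).h (z k)))
      (jt (L.x p) (L.N p, (L.L p).toContinuousLinearMap) (L.h p)) U (closedBall 0 1) := by
    refine (Metric.tendstoUniformlyOn_iff (α := Jt m)).2 fun ε hε => ?_
    filter_upwards [Metric.tendsto_nhds.1 t1 ε hε, Metric.tendstoUniformlyOn_iff.1 h.th.c0 ε hε,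
      Metric.tendstoUniformlyOn_iff.1 h.th.c1 ε hε,
      (Metric.tendstoUniformlyOn_iff (α := E m →L[ℝ] E m →L[ℝ] ℝ)).1 h.th.c2 ε hε]
      with k k0 k1 k2 k3 y hy
    rw [dist_comm] at k0
    exact max_lt k0 (max_lt (max_lt ((dist_self y).trans_lt hε) (k1 y (s4 hy)))
      (max_lt (k2 y (s4 hy)) (k3 y (s4 hy))))
  have t3 := lim_int ((h.good 1 one_pos).mono fun k hk =>
    cΦ.comp_continuousOn (jt_cont _ _ hk.sm)) (cΦ.comp_continuousOn c0)
    (unif (isCompact_closedBall 0 1) c0 cΦ t2)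
  convert t3.congr' ?_ using 2
  · refine setIntegral_congr_fun measurableSet_ball fun y hy => ?_
    rw [a2_leaf hL C ch p hy, hL.xφ p y (s4 (ball_subset_closedBall hy))]
    rfl
  · filter_upwards [h.good 1 one_pos] with k hk
    refine setIntegral_congr_fun measurableSet_ball fun y hy => ?_
    rw [a2_sh hk (s4 (ball_subset_closedBall hy))]
    rfl

end Vale.Agent.P134U
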