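import Vale.Agent.P134U.Defs

/-!
# The row REC: segments stay in a disc
-/

open Metric Set Filter Topology
open scoped ContDiff Gradient RealInnerProductSpace

namespace Vale.Agent.P134U

open Vale.Agent.P134L (E)
open Vale.Agent.P134G (Sh)

variable {m : ℕ} {s : Sh m} {p : E (m + 1)} {C η : ℝ}

theorem rec_lo (a : s.At p C η) (w : E m) : ‖w‖ ≤ ‖s.X p w - p‖ := by
  refine le_of_sq_le_sq ?_ (norm_nonneg _)
  rw [Sh.X, add_assoc, add_sub_cancel_left, norm_add_sq_real, inner_smul_right, real_inner_comm,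
    a.NL, LinearIsometry.norm_map]
  nlinarith [sq_nonneg ‖s.h p w • s.N p‖]

theorem rec_hi (a : s.At p C η) {u v : E m} (hu : u ∈ ball (0 : E m) 4)
    (hv : v ∈ ball (0 : E m) 4) : ‖s.X p u - s.X p v‖ ≤ 11 / 10 * ‖u - v‖ := by
  have e : s.X p u - s.X p v = s.L p (u - v) + (s.h p u - s.h p v) • s.N p := by
    simp only [Sh.X, map_sub, sub_smul]; abel
  have k := (convex_ball (0 : E m) 4).norm_image_sub_le_of_norm_fderiv_le (𝕜 := ℝ) (f := s.h p)
    (C := 1 / 10) (fun y hy => (a.sm.contDiffAt (isOpen_ball.mem_nhds hy)).differentiableAt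
      (by simp)) (fun y hy => ((InnerProductSpace.toDual ℝ (E m)).symm.norm_map _).symm.le.trans
      (a.b1 y hy)) hv hu
  rw [e]
  refine (norm_add_le _ _).trans ?_
  rw [LinearIsometry.norm_map, norm_smul, a.N1]
  linarith

theorem rec_cont (a : s.At p C η) : ContinuousOn (s.X p) (ball 0 4) :=
  (continuousOn_const.add (s.L p).continuous.continuousOn).add
    (a.sm.continuousOn.smul continuousOn_const)

/-- **REC** -/
theorem rec : REC := by
  intro m s p a C η hp ha y hy z hz h0 h3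
  have cv := convex_ball (0 : E m) 4
  have sb := cv.segment_subset hy hz
  have b3 : ∀ u ∈ segment ℝ y z, ‖s.X a u - p‖ ≤ 3 := fun u hu => by
    have h1 := rec_hi ha (sb hu) hy
    have h2 : ‖u - y‖ ≤ ‖y - z‖ := by
      rw [norm_sub_rev y z]; exact norm_sub_le_of_mem_segment hu
    have := norm_sub_le_norm_sub_add_norm_sub (s.X a u) (s.X a y) p
    linarith
  have c3 : closedBall (0 : E m) 3 ⊆ ball 0 4 := closedBall_subset_ball (by norm_num)
  have cl : IsClosed (s.X p '' closedBall 0 3) :=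
    ((isCompact_closedBall 0 3).image_of_continuousOn ((rec_cont hp).mono c3)).isClosed
  have cX := (rec_cont ha).mono sb
  have in3 : ∀ u ∈ segment ℝ y z, s.X a u ∈ s.X p '' ball 0 4 → s.X a u ∈ s.X p '' closedBall 0 3 :=
    fun u hu ⟨w, _, e⟩ => ⟨w, mem_closedBall_zero_iff.2 ((rec_lo hp w).trans (e ▸ b3 u hu)), e⟩
  have key : ∀ u ∈ segment ℝ y z, s.X a u ∈ s.X p '' closedBall 0 3 := by
    have := Subtype.preconnectedSpace (convex_segment (𝕜 := ℝ) y z).isPreconnected
    have c : Continuous fun u : segment ℝ y z => s.X a u := cX.domRestrict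
    have co : IsClopen {u : segment ℝ y z | s.X a u ∈ s.X p '' closedBall 0 3} := by
      refine ⟨cl.preimage c, isOpen_iff_mem_nhds.2 fun u ⟨w, hw, e⟩ => ?_⟩
      have t : Tendsto (fun u : segment ℝ y z => s.X a u) (𝓝 u) (𝓝[s.S] s.X p w) :=
        tendsto_nhdsWithin_iff.2 ⟨e ▸ c.tendsto u, Eventually.of_forall fun v => ha.mem _ (sb v.2)⟩
      exact mem_of_superset (t (hp.opn w (c3 hw))) fun v hv => in3 _ v.2 hv
    have := co.eq_univ ⟨⟨y, left_mem_segment ℝ y z⟩, in3 y (left_mem_segment ℝ y z) h0⟩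
    exact fun u hu => (eq_univ_iff_forall.1 this) ⟨u, hu⟩
  obtain ⟨w, hw, e⟩ := key z (right_mem_segment ℝ y z)
  exact ⟨w, mem_closedBall_zero_iff.1 hw, e ▸ rec_lo hp w, e⟩

end Vale.Agent.P134U
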