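import Vale.Agent.P134U.Defs
import Vale.Agent.P366Q.T.Regq

/-!
# The row RG: minimal graphs are smooth
-/

open Metric Set Filter Topology
open scoped ContDiff Gradient

namespace Vale.Agent.P134U

open Vale.Agent.P134L (E)
open Vale.Agent.P134G (d2 mse)

theorem rg_el {n : ℕ} (p : Fin n → ℝ) : ∃ Λ, P366Y.El Λ
    (fun i j => (if i = j then 1 + ∑ k, p k ^ 2 else 0) - p i * p j : P366Y.Mx n) := by
  set a : P366Y.Mx n := fun i j => (if i = j then 1 + ∑ k, p k ^ 2 else 0) - p i * p j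
  have s0 : 0 ≤ ∑ i, ∑ j, |a i j| := by positivity
  refine ⟨1 + ∑ i, ∑ j, |a i j|, fun i j => by simp only [a, eq_comm, mul_comm], fun i j => ?_,
    fun ξ => ?_⟩
  · have h1 := Finset.single_le_sum (f := fun j => |a i j|) (fun _ _ => abs_nonneg _)
      (Finset.mem_univ j)
    have h2 := Finset.single_le_sum (f := fun i => ∑ j, |a i j|) (fun _ _ => by positivity)
      (Finset.mem_univ i)
    linarith
  · have e : ∑ i, ∑ j, a i j * ξ i * ξ j =
        (1 + ∑ k, p k ^ 2) * ∑ i, ξ i ^ 2 - (∑ i, p i * ξ i) ^ 2 := by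
      rw [sq (∑ i, _), Finset.sum_mul_sum, Finset.mul_sum, ← Finset.sum_sub_distrib]
      refine Finset.sum_congr rfl fun i _ => ?_
      simp only [a, sub_mul, Finset.sum_sub_distrib, ite_mul, zero_mul, Finset.sum_ite_eq,
        Finset.mem_univ, if_true]
      congr 1
      · ring
      · exact Finset.sum_congr rfl fun j _ => by ring
    have c := Finset.sum_mul_sq_le_sq_mul_sq Finset.univ p ξ
    have x0 : 0 ≤ ∑ i, ξ i ^ 2 := by positivity
    have : ∑ i, ξ i ^ 2 ≤ ∑ i, ∑ j, a i j * ξ i * ξ j := by rw [e]; linarith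
    unfold P366Y.e2
    nlinarith

/-- **RG** -/
theorem rg : RG := by
  intro m g C hg h y hy
  have c2 : ∀ y ∈ ball (0 : E m) 4, ContDiffAt ℝ 2 g y := fun y hy =>
    hg.contDiffAt (isOpen_ball.mem_nhds hy)
  have e2 : ∀ y ∈ ball (0 : E m) 4, P366Y.D2 g y = d2 g y := fun y hy =>
    funext fun i => funext fun j => P366Z.pd_pd_eq (c2 y hy) i j
  have e1 : ∀ y ∈ ball (0 : E m) 4, ∀ i, (P366Y.J1 g y).2 i = ∇ g y i := fun y hy i => by
    refine (P366Z.pd_eq ((c2 y hy).differentiableAt (by norm_num)) i).trans ?_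
    rw [← InnerProductSpace.toDual_symm_apply, EuclideanSpace.inner_single_right]
    simp [gradient]
  refine (P366M.Y.regq_loc (α := 1 / 2) (A := |C| + 1) (V := univ) (b := fun _ => 0)
    (a := fun q i j => (if i = j then 1 + ∑ k, q.2.2 k ^ 2 else 0) - q.2.2 i * q.2.2 j)
    (by norm_num) isOpen_ball isOpen_univ c2 ⟨fun y hy => ?_, fun y hy z hz => ?_⟩
    (fun q _ => ?_) (fun _ _ => contDiffAt_const) (fun _ _ => trivial) (fun y _ => rg_el _)
    (fun y hy => ?_) y hy).contDiffWithinAt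
  · rw [e2 y hy]
    refine (pi_norm_le_iff_of_nonneg (by positivity)).2 fun i =>
      (pi_norm_le_iff_of_nonneg (by positivity)).2 fun j => ?_
    have := (fderiv ℝ (fderiv ℝ g) y).le_opNorm₂ (P134G.ee i) (P134G.ee j)
    simp only [PiLp.norm_single, norm_one, mul_one] at this
    exact this.trans ((h y hy).2.1.trans (by linarith [abs_nonneg C]))
  · rw [e2 y hy, e2 z hz]
    refine (pi_norm_le_iff_of_nonneg (by positivity)).2 fun i =>
      (pi_norm_le_iff_of_nonneg (by positivity)).2 fun j =>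
        ((h y hy).2.2.2 z hz i j).trans ?_
    rw [Real.sqrt_eq_rpow]
    gcongr
    linarith [le_abs_self C]
  · refine ContDiff.contDiffAt (contDiff_pi.2 fun i => contDiff_pi.2 fun j => ?_)
    split_ifs <;> fun_prop
  · have k := (h y hy).2.2.1
    have n : ‖∇ g y‖ ^ 2 = ∑ k, ∇ g y k ^ 2 := by simp [EuclideanSpace.norm_sq_eq]
    unfold mse at k
    rw [sub_eq_zero, eq_div_iff (by positivity), n] at k
    simp only [P366Y.pr2, e2 y hy, e1 y hy, sub_mul, Finset.sum_sub_distrib, ite_mul, zero_mul,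
      Finset.sum_ite_eq, Finset.mem_univ, if_true, ← Finset.mul_sum]
    linarith

end Vale.Agent.P134U
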