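import Vale.Agent.P134L.K1
import Vale.Agent.P134L.K2
import Vale.Agent.P134L.K3
import Vale.Agent.P134L.K4
import Vale.Agent.P134L.K5
import Vale.Agent.P134L.L0
import Vale.Agent.P134U.C2
import Vale.Agent.P134U.Rg
import Vale.Agent.P134U.Rec
import Vale.Agent.P134U.Pre
import Vale.Agent.P134U.Met
import Vale.Agent.P134U.Prop
import Vale.Agent.P134U.Mu
import Vale.Agent.P134U.Int
import Vale.Agent.P134U.Pu
import Vale.Agent.P134U.Ext
import Vale.Agent.P134U.Ql
import Vale.Agent.P134U.Stb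

/-!
# P134U: the limit leaf
-/

namespace Vale.Agent.P134U

open Vale.Agent.P134L

/-- **ULIM** -/
theorem ulim {m : ℕ} (hm : 4 ≤ m) : P134G.ULIM m :=
  ulim_of (cc_of k1 k2 k3 k4 k5 l0) c2 rg rec pre met prop mu int pu ext ql stb hm

end Vale.Agent.P134U
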