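import Vale.Agent.P134G.Sheet

/-!
# P134U: the ultralimit of systems of discs is a stable minimal leaf
-/

open MeasureTheory Metric Set Filter Topology
open scoped ContDiff RealInnerProductSpace Gradient

noncomputable section

namespace Vale.Agent.P134U

open Vale.Agent.P134L (E Leaf BERN Geo Calc Chart ForL ForG)
open Vale.Agent.P134G (Sh Seq Tst d2 J mse FLAT ULIM)

variable {m : ℕ}

/-! ## Limits of graphs -/

/-- uniform convergence with two derivatives on the ball of radius `4` -/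
structure Cv (U : Filter ℕ) (h : ℕ → E m → ℝ) (g : E m → ℝ) : Prop where
  c0 : TendstoUniformlyOn h g U (ball 0 4)
  c1 : TendstoUniformlyOn (fun k => fderiv ℝ (h k)) (fderiv ℝ g) U (ball 0 4)
  c2 : TendstoUniformlyOn (fun k => fderiv ℝ (fderiv ℝ (h k))) (fderiv ℝ (fderiv ℝ g)) U (ball 0 4)

/-- compactness in `C ^ 2` along an ultrafilter -/
def C2 : Prop := ∀ (m : ℕ) (U : Ultrafilter ℕ) (h : ℕ → E m → ℝ) (C : ℝ),
  (∀ᶠ k in U, ContDiffOn ℝ ∞ (h k) (ball 0 4) ∧ h k 0 = 0 ∧ ∀ y ∈ ball (0 : E m) 4,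
    ‖∇ (h k) y‖ ≤ 1 / 10 ∧ ‖fderiv ℝ (fderiv ℝ (h k)) y‖ ≤ 1 / 10 ∧ ∀ z ∈ ball (0 : E m) 4,
      ∀ i j, |d2 (h k) y i j - d2 (h k) z i j| ≤ C * √‖y - z‖) →
  ∃ g : E m → ℝ, ContDiffOn ℝ 2 g (ball 0 4) ∧ Cv U h g

/-- minimal graphs are smooth -/
def RG : Prop := ∀ (m : ℕ) (g : E m → ℝ) (C : ℝ), ContDiffOn ℝ 2 g (ball 0 4) →
  (∀ y ∈ ball (0 : E m) 4, ‖∇ g y‖ ≤ 1 / 10 ∧ ‖fderiv ℝ (fderiv ℝ g) y‖ ≤ 1 / 10 ∧ mse g y = 0 ∧
    ∀ z ∈ ball (0 : E m) 4, ∀ i j, |d2 g y i j - d2 g z i j| ≤ C * √‖y - z‖) →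
  ContDiffOn ℝ ∞ g (ball 0 4)

/-- a segment in the disc of `a` which starts in the disc of `p` and is close to `p` stays in
the disc of `p` -/
def REC : Prop := ∀ (m : ℕ) (s : Sh m) (p a : E (m + 1)) (C η : ℝ), s.At p C η → s.At a C η →
  ∀ y ∈ ball (0 : E m) 4, ∀ z ∈ ball (0 : E m) 4, s.X a y ∈ s.X p '' ball 0 4 →
  ‖s.X a y - p‖ + 11 / 10 * ‖y - z‖ ≤ 3 →
  ∃ w : E m, ‖w‖ ≤ 3 ∧ ‖w‖ ≤ ‖s.X a z - p‖ ∧ s.X p w = s.X a z

/-! ## Leaves without metric and measure -/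

/-- discs on a set; `In p q` means that `q` lies in the disc of `p` -/
structure Pre (m : ℕ) (B : Type) where
  x : B → E (m + 1)
  N : B → E (m + 1)
  L : B → E m →ₗᵢ[ℝ] E (m + 1)
  h : B → E m → ℝ
  φ : B → E m → B
  In : B → B → Prop

/-- the axioms for discs on a set -/
structure Pre.Ok {B : Type} (P : Pre m B) : Prop where
  N1 : ∀ p, ‖P.N p‖ = 1
  NL : ∀ p v, ⟪P.N p, P.L p v⟫ = 0
  h0 : ∀ p, P.h p 0 = 0
  d0 : ∀ p, ∇ (P.h p) 0 = 0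
  xφ : ∀ p, ∀ y ∈ ball (0 : E m) 4, P.x (P.φ p y) = P.x p + P.L p y + P.h p y • P.N p
  Nφ : ∀ p, ∀ y ∈ ball (0 : E m) 4,
    √(1 + ‖∇ (P.h p) y‖ ^ 2) • P.N (P.φ p y) = P.N p - P.L p (∇ (P.h p) y)
  hs : ∀ p, ContDiffOn ℝ ∞ (P.h p) (ball 0 4)
  h1 : ∀ p, ∀ y ∈ ball (0 : E m) 4, ‖fderiv ℝ (P.h p) y‖ ≤ 1 / 10
  h2 : ∀ p, ∀ y ∈ ball (0 : E m) 4, ‖fderiv ℝ (fderiv ℝ (P.h p)) y‖ ≤ 1
  mn : ∀ p, ∑ i, d2 (P.h p) 0 i i = 0
  self : ∀ p, P.In p p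
  inφ : ∀ p, ∀ y ∈ ball (0 : E m) 4, P.In p (P.φ p y)
  gr : ∀ p q, P.In p q → ∃ y ∈ ball (0 : E m) 4, P.x q = P.x (P.φ p y) ∧ P.N q = P.N (P.φ p y)
  rc : ∀ a p z w, P.In a z → P.In a w → P.In p z → ‖P.x z - P.x p‖ + ‖P.x z - P.x w‖ < 2 →
    P.In p w

/-- the point `x`, the frame `N`, `L` and the graph `h` are the limits of the discs at `z k` -/
structure Ap (s : ℕ → Sh m) (C : ℝ) (U : Filter ℕ) (z : ℕ → E (m + 1)) (x N : E (m + 1))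
    (L : E m →ₗᵢ[ℝ] E (m + 1)) (h : E m → ℝ) : Prop where
  mem : ∀ᶠ k in U, z k ∈ (s k).S
  good : ∀ η > 0, ∀ᶠ k in U, (s k).At (z k) C η
  tx : Tendsto z U (𝓝 x)
  tN : Tendsto (fun k => (s k).N (z k)) U (𝓝 N)
  tL : ∀ y, Tendsto (fun k => (s k).L (z k) y) U (𝓝 (L y))
  th : Cv U (fun k => (s k).h (z k)) h

/-- `w k` lies in the disc of `z k`, away from the boundary, for most `k` -/
def Nr (s : ℕ → Sh m) (U : Filter ℕ) (z w : ℕ → E (m + 1)) : Prop :=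
  ∃ r < (4 : ℝ), ∀ᶠ k in U, w k ∈ (s k).X (z k) '' ball 0 r

/-- the ultraproduct -/
def PRE : Prop := C2 → RG → REC → ∀ (m : ℕ) (s : ℕ → Sh m) (C : ℝ) (U : Ultrafilter ℕ),
  Seq s C → (U : Filter ℕ) ≤ atTop → ∃ (B : Type) (P : Pre m B) (z : B → ℕ → E (m + 1)) (o : B),
    P.Ok ∧ (z o = fun _ => 0) ∧ (∀ p, Ap s C U (z p) (P.x p) (P.N p) (P.L p) (P.h p)) ∧
    ∀ p q, P.In p q ↔ Nr s U (z p) (z q)

/-! ## The metric and the measure -/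

/-- the axioms of a leaf, without the measure -/
structure Ok0 {M : Type} [MetricSpace M] [MeasurableSpace M] (L : Leaf m M) : Prop where
  N1 : ∀ p, ‖L.N p‖ = 1
  NL : ∀ p v, ⟪L.N p, L.L p v⟫ = 0
  φ0 : ∀ p, L.φ p 0 = p
  xφ : ∀ p, ∀ y ∈ ball (0 : E m) 4, L.x (L.φ p y) = L.x p + L.L p y + L.h p y • L.N p
  Nφ : ∀ p, ∀ y ∈ ball (0 : E m) 4,
    √(1 + ‖∇ (L.h p) y‖ ^ 2) • L.N (L.φ p y) = L.N p - L.L p (∇ (L.h p) y)
  hs : ∀ p, ContDiffOn ℝ ∞ (L.h p) (ball 0 4)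
  h1 : ∀ p, ∀ y ∈ ball (0 : E m) 4, ‖fderiv ℝ (L.h p) y‖ ≤ 1
  h2 : ∀ p, ∀ y ∈ ball (0 : E m) 4, ‖fderiv ℝ (fderiv ℝ (L.h p)) y‖ ≤ 1
  mn : ∀ p, ∑ i, fderiv ℝ (fderiv ℝ (L.h p)) 0 (EuclideanSpace.single i 1)
    (EuclideanSpace.single i 1) = 0
  dx : ∀ p q, ‖L.x q - L.x p‖ ≤ dist q p
  dφ : ∀ p, ∀ y ∈ ball (0 : E m) 4, ∀ z ∈ ball (0 : E m) 4,
    dist (L.φ p y) (L.φ p z) ≤ 2 * ‖y - z‖
  onto : ∀ p q, dist q p < 2 → ∃ y ∈ ball (0 : E m) 4, L.φ p y = q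

theorem ok0 {M : Type} [MetricSpace M] [MeasurableSpace M] {L : Leaf m M} (h : L.Ok) : Ok0 L :=
  ⟨h.N1, h.NL, h.φ0, h.xφ, h.Nφ, h.hs, h.h1, h.h2, h.mn, h.dx, h.dφ, h.onto⟩

/-- functions which are Lipschitz in the small are Lipschitz -/
def Mx (M : Type) [MetricSpace M] : Prop := ∀ (f : M → ℝ) (δ : ℝ), 0 < δ →
  (∀ p q, dist p q ≤ δ → |f p - f q| ≤ dist p q) → ∀ p q, |f p - f q| ≤ 2 * dist p q

/-- the theorem of Hopf and Rinow -/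
def PROP : Prop := ∀ (M : Type) [MetricSpace M], (∀ p : M, IsCompact (closedBall p 1)) → Mx M →
  ProperSpace M

/-- the leaf `L` consists of points of `P` -/
structure Sub {B M : Type} [MetricSpace M] [MeasurableSpace M] (P : Pre m B) (L : Leaf m M)
    (ι : M → B) : Prop where
  x : ∀ p, L.x p = P.x (ι p)
  N : ∀ p, L.N p = P.N (ι p)
  Lp : ∀ p, L.L p = P.L (ι p)
  h : ∀ p, L.h p = P.h (ι p)
  near : ∀ p q, dist q p < 2 → P.In (ι p) (ι q)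
  far : ∀ p q, P.In (ι p) (ι q) → dist q p ≤ ‖L.x q - L.x p‖

/-- the leaf through a point -/
def MET : Prop := ∀ (m : ℕ) (B : Type) (P : Pre m B) (o : B), P.Ok →
  ∃ (M : Type) (_ : MetricSpace M) (_ : MeasurableSpace M) (_ : BorelSpace M) (L : Leaf m M)
    (ι : M → B) (p : M), Ok0 L ∧ Mx M ∧ Sub P L ι ∧ ι p = o

/-- the area measure -/
def MU : Prop := ∀ (m : ℕ) (M : Type) [MetricSpace M] [ProperSpace M] [MeasurableSpace M]
  [BorelSpace M] (L : Leaf m M), Ok0 L → ∃ μ : Measure M, Leaf.Ok { L with μ := μ }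

/-! ## Stability -/

/-- integrals in one disc -/
def INT : Prop := ∀ (m : ℕ) (M : Type) [MetricSpace M] [MeasurableSpace M] [BorelSpace M]
  (L : Leaf m M), L.Ok → ∀ (p : M) (F : M → ℝ), AEStronglyMeasurable F L.μ →
  (∀ q, 1 ≤ dist q p → F q = 0) →
  ∫ q, F q ∂L.μ = ∫ y in ball (0 : E m) 1, F (L.φ p y) * J (L.h p) y

/-- partitions of test functions -/
def PU : Prop := ForG fun _ M _ _ G => P134L.Rule G → P134L.Rule2 G → ∀ ψ : M → ℝ,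
  (∀ q, G.Sm ψ q) → HasCompactSupport ψ → ∃ (n : ℕ) (p : Fin n → M) (f : Fin n → M → ℝ),
    (∀ i q, G.Sm (f i) q) ∧ (∀ i q, 1 / 8 ≤ dist q (p i) → f i q = 0) ∧ ∀ q, ψ q = ∑ i, f i q

/-- extensions with tangential gradient -/
def EXT : Prop := ForL fun m M _ _ L => Calc L.geo → Chart L → ∀ (p : M) (f : M → ℝ),
  (∀ q, L.geo.Sm f q) → (∀ q, 1 / 8 ≤ dist q p → f q = 0) →
  ∃ G : E (m + 1) → ℝ, ContDiff ℝ ∞ G ∧ (∀ w, 2 / 5 ≤ ‖w - L.x p‖ → G w = 0) ∧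
    ∀ q, dist q p < 2 → G (L.x q) = f q ∧ ∀ i, ∇ G (L.x q) i = L.geo.δ i f q

/-- the limit of the integrals over one disc -/
def QL : Prop := ForL fun m M _ _ L => Calc L.geo → Chart L → ∀ (s : ℕ → Sh m) (C : ℝ)
  (U : Ultrafilter ℕ) (z : ℕ → E (m + 1)) (p : M),
  Ap s C U z (L.x p) (L.N p) (L.L p) (L.h p) → ∀ (F H : E (m + 1) → ℝ) (a c : ℝ), Continuous F →
  Continuous H → Tendsto (fun k => ∫ y in ball (0 : E m) 1, (F ((s k).X (z k) y) +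
      (c - a * (s k).A2 (z k) y) * H ((s k).X (z k) y)) * J ((s k).h (z k)) y) U
    (𝓝 (∫ y in ball (0 : E m) 1, (F (L.x (L.φ p y)) +
      (c - a * L.geo.A2 (L.φ p y)) * H (L.x (L.φ p y))) * J (L.h p) y))

/-- the limit leaf is stable -/
def STB : Prop := REC → INT → PU → EXT → QL → ForL fun m M _ _ L => Calc L.geo → Chart L →
  ∀ (s : ℕ → Sh m) (C : ℝ) (U : Ultrafilter ℕ) (z : M → ℕ → E (m + 1)), Seq s C →
  (U : Filter ℕ) ≤ atTop → (∀ p, Ap s C U (z p) (L.x p) (L.N p) (L.L p) (L.h p)) →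
  (∀ p q, dist q p < 2 → Nr s U (z p) (z q)) →
  (∀ p q, Nr s U (z p) (z q) → dist q p ≤ ‖L.x q - L.x p‖) → L.geo.Stable

/-- the calculus on leaves (rows `K1` to `K5` and `L0` of `P134L`) -/
def CC : Prop := ForL fun _ _ _ _ L => Calc L.geo ∧ Chart L

theorem cc_of (k1 : P134L.K1) (k2 : P134L.K2) (k3 : P134L.K3) (k4 : P134L.K4) (k5 : P134L.K5)
    (l0 : P134L.L0) : CC := by
  intro m M _ _ _ _ L hm hL
  have c := k1 m M L hm hL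
  have r := k3 m M L.geo hm c
  have r2 := k4 m M L.geo hm c r
  have ch := l0 m M L hm hL c r r2
  have ms := k2 m M L hm hL c r r2 ch
  exact ⟨⟨c, ms, r, r2, k5 m M L.geo hm c r r2 ms⟩, ch⟩

theorem cpt {M : Type} [MetricSpace M] [MeasurableSpace M] {L : Leaf m M} (h : Ok0 L) (p : M) :
    IsCompact (closedBall p 1) := by
  have c : ContinuousOn (L.φ p) (ball 0 4) :=
    (LipschitzOnWith.of_dist_le_mul (K := 2) fun y hy z hz => by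
      simpa [dist_eq_norm] using h.dφ p y hy z hz).continuousOn
  refine (((isCompact_closedBall (0 : E m) 1).image_of_continuousOn (c.mono
    (closedBall_subset_ball (by norm_num)))).of_isClosed_subset isClosed_closedBall fun q hq => ?_)
  have h1 : dist q p ≤ 1 := hq
  obtain ⟨y, hy, rfl⟩ := h.onto p q (by linarith)
  refine ⟨y, mem_closedBall_zero_iff.2 (((?_ : ‖y‖ ≤ _).trans (h.dx p _)).trans h1), rfl⟩
  rw [h.xφ p y hy, add_assoc, add_sub_cancel_left]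
  refine le_of_sq_le_sq ?_ (norm_nonneg _)
  rw [norm_add_sq_real, inner_smul_right, real_inner_comm, h.NL, LinearIsometry.norm_map]
  nlinarith [sq_nonneg ‖L.h p y • L.N p‖]

/-- **ULIM** from the rows -/
theorem ulim_of (cc : CC) (c2 : C2) (rg : RG) (rc : REC) (pre : PRE) (met : MET) (pr : PROP)
    (mu : MU) (int : INT) (pu : PU) (ext : EXT) (ql : QL) (stb : STB) (hm : 4 ≤ m) :
    ULIM m := by
  intro hB s C hs i j
  rw [tendsto_iff_ultrafilter]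
  intro U hU
  obtain ⟨B, P, z, o, hP, ho, hz, hI⟩ := pre c2 rg rc m s C U hs hU
  obtain ⟨M, _, _, _, L, ι, p, h0, hx, hS, rfl⟩ := met m B P o hP
  have := pr M (cpt h0) hx
  obtain ⟨μ, hL⟩ := mu m M L h0
  obtain ⟨c, ch⟩ := cc m M _ hm hL
  have st := stb rc int pu ext ql m M _ hm hL c ch s C U (fun q => z (ι q)) hs hU
    (fun q => by
      have := hz (ι q)
      rwa [← hS.x, ← hS.N, ← hS.Lp, ← hS.h] at this)
    (fun a b k => (hI _ _).1 (hS.near a b k)) fun a b k => hS.far a b ((hI _ _).2 k)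
  have h1 : fderiv ℝ (fderiv ℝ (L.h p)) 0 = 0 := hB M _ hL st p
  have h2 := (hz (ι p)).th.c2.tendsto_at (mem_ball_self four_pos)
  rw [← hS.h, h1, ho] at h2
  have h3 : Continuous fun T : E m →L[ℝ] E m →L[ℝ] ℝ => T (P134G.ee i) (P134G.ee j) := by
    fun_prop
  exact (h3.tendsto 0).comp h2

end Vale.Agent.P134U
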