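import Vale.Agent.P134U.Defs

/-!
# P134U: the limit leaf is stable
-/

open MeasureTheory Metric Set Filter Topology
open scoped ContDiff RealInnerProductSpace Gradient

noncomputable section

namespace Vale.Agent.P134U

open Vale.Agent.P134L (E Leaf BERN Geo Calc Chart ForL ForG)
open Vale.Agent.P134G (Sh Seq Tst d2 J mse FLAT ULIM)

namespace Stb

variable {m n : ℕ}

theorem cd_grad {G : E n → ℝ} (hG : ContDiff ℝ ∞ G) : ContDiff ℝ ∞ (∇ G) :=
  (InnerProductSpace.toDual ℝ (E n)).symm.toContinuousLinearEquiv.contDiff.comp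
    (hG.fderiv_right (m := ∞) le_rfl)

theorem grad0 {G : E n → ℝ} {c : E n} (h0 : ∀ w, 2 / 5 ≤ ‖w - c‖ → G w = 0) {w : E n}
    (hw : 2 / 5 < ‖w - c‖) : ∇ G w = 0 := by
  have h : G =ᶠ[𝓝 w] fun _ => 0 := by
    have : ContinuousAt (fun w : E n => ‖w - c‖) w := by fun_prop
    filter_upwards [this.eventually (lt_mem_nhds hw)] with v hv using h0 v hv.le
  rw [h.gradient_eq]
  simp [gradient]

theorem bd {G : E n → ℝ} {c : E n} (hG : ContDiff ℝ ∞ G)
    (h0 : ∀ w, 2 / 5 ≤ ‖w - c‖ → G w = 0) :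
    ∃ B, (∀ x, |G x| ≤ B) ∧ (∀ x, ‖∇ G x‖ ≤ B) ∧ ∀ x, ‖fderiv ℝ (∇ G) x‖ ≤ B := by
  have k0 : HasCompactSupport G := HasCompactSupport.intro (isCompact_closedBall c (2 / 5))
    fun x hx => h0 x (le_of_lt (by simpa [dist_eq_norm] using hx))
  have k1 : HasCompactSupport (∇ G) := HasCompactSupport.intro (isCompact_closedBall c (2 / 5))
    fun x hx => grad0 h0 (by simpa [dist_eq_norm] using hx)
  obtain ⟨B0, b0⟩ := hG.continuous.bounded_above_of_compact_support k0
  obtain ⟨B1, b1⟩ := (cd_grad hG).continuous.bounded_above_of_compact_support k1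
  obtain ⟨B2, b2⟩ := ((cd_grad hG).continuous_fderiv (by simp)).bounded_above_of_compact_support
    (k1.fderiv ℝ)
  exact ⟨max B0 (max B1 B2), fun x => (b0 x).trans (le_max_left _ _),
    fun x => (b1 x).trans (le_max_of_le_right (le_max_left _ _)),
    fun x => (b2 x).trans (le_max_of_le_right (le_max_right _ _))⟩

theorem X0 {s : Sh m} {p : E (m + 1)} {C η : ℝ} (h : s.At p C η) : s.X p 0 = p := by
  simp [Sh.X, h.h0]

/-- the bracket is supported near both centres -/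
theorem br {F G : E n → ℝ} {a b x : E n} {t : ℝ} (hF : ∀ w, 2 / 5 ≤ ‖w - a‖ → F w = 0)
    (hG : ∀ w, 2 / 5 ≤ ‖w - b‖ → G w = 0) (h : ⟪∇ F x, ∇ G x⟫ - t * (F x * G x) ≠ 0) :
    ‖x - a‖ ≤ 2 / 5 ∧ ‖x - b‖ ≤ 2 / 5 := by
  constructor <;> by_contra k <;> push Not at k
  · exact h (by simp [grad0 hF k, hF x k.le])
  · exact h (by simp [grad0 hG k, hG x k.le])

variable {M : Type} [MetricSpace M] [MeasurableSpace M]

theorem del0 {G : Geo m M} (c : Calc G) {f : M → ℝ} {a q : M}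
    (hf : ∀ q, 1 / 8 ≤ dist q a → f q = 0) (hq : 1 / 8 < dist q a) (i : Fin (m + 1)) :
    G.δ i f q = 0 := by
  have h : f =ᶠ[𝓝 q] fun _ => 0 := by
    have : ContinuousAt (fun w : M => dist w a) q := by fun_prop
    filter_upwards [this.eventually (lt_mem_nhds hq)] with v hv using hf v hv.le
  rw [c.cgr h, c.δc]

/-- the integrand on the leaf -/
def Ig (G : Geo m M) (f g : M → ℝ) (q : M) : ℝ := G.Gam f g q - G.A2 q * (f q * g q)

theorem Ig0 {G : Geo m M} (c : Calc G) {f : M → ℝ} (g : M → ℝ) {a q : M}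
    (hf : ∀ q, 1 / 8 ≤ dist q a → f q = 0) (hq : 1 / 8 < dist q a) :
    Ig G f g q = 0 ∧ Ig G g f q = 0 := by
  simp [Ig, Geo.Gam, del0 c hf hq, hf q hq.le]

theorem Ig_cont {G : Geo m M} (c : Calc G) {f g : M → ℝ} (hf : ∀ q, G.Sm f q)
    (hg : ∀ q, G.Sm g q) : Continuous (Ig G f g) :=
  continuous_iff_continuousAt.2 fun q =>
    c.cont (c.sub (c.smG (hf q) (hg q)) (c.mul (c.smA q) (c.mul (hf q) (hg q))))

theorem pair [ProperSpace M] [BorelSpace M] (rc : REC) (int : INT) (ql : QL) {L : Leaf m M}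
    (hm : 4 ≤ m) (hL : L.Ok) (c : Calc L.geo) (ch : Chart L) {s : ℕ → Sh m} {C : ℝ}
    {U : Ultrafilter ℕ} {z w : ℕ → E (m + 1)} {a b : M}
    (ha : Ap s C U z (L.x a) (L.N a) (L.L a) (L.h a))
    (hb : Ap s C U w (L.x b) (L.N b) (L.L b) (L.h b))
    (h1 : dist a b < 2 → Nr s U w z) (h2 : Nr s U w z → dist a b ≤ ‖L.x a - L.x b‖)
    {f g : M → ℝ} {F G : E (m + 1) → ℝ} (sf : ∀ q, L.geo.Sm f q) (sg : ∀ q, L.geo.Sm g q)
    (f0 : ∀ q, 1 / 8 ≤ dist q a → f q = 0) (g0 : ∀ q, 1 / 8 ≤ dist q b → g q = 0)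
    (sF : ContDiff ℝ ∞ F) (sG : ContDiff ℝ ∞ G) (F0 : ∀ v, 2 / 5 ≤ ‖v - L.x a‖ → F v = 0)
    (G0 : ∀ v, 2 / 5 ≤ ‖v - L.x b‖ → G v = 0)
    (eF : ∀ q, dist q a < 2 → F (L.x q) = f q ∧ ∀ i, ∇ F (L.x q) i = L.geo.δ i f q)
    (eG : ∀ q, dist q b < 2 → G (L.x q) = g q ∧ ∀ i, ∇ G (L.x q) i = L.geo.δ i g q) :
    Tendsto (fun k => ∫ y in ball (0 : E m) 1, ((s k).D (w k)).indicator
      (fun x => ⟪∇ F x, ∇ G x⟫ - (s k).A2 (z k) y * (F x * G x)) ((s k).X (z k) y) *
        J ((s k).h (z k)) y) U (𝓝 (∫ q, Ig L.geo f g q ∂L.μ)) := by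
  classical
  have ta : ∀ᶠ k in U, ‖z k - L.x a‖ < 1 / 10 := by
    simpa [dist_eq_norm] using ha.tx.eventually (ball_mem_nhds _ (by norm_num : (0 : ℝ) < 1 / 10))
  have tb : ∀ᶠ k in U, ‖w k - L.x b‖ < 1 / 10 := by
    simpa [dist_eq_norm] using hb.tx.eventually (ball_mem_nhds _ (by norm_num : (0 : ℝ) < 1 / 10))
  have b14 : ball (0 : E m) 1 ⊆ ball 0 4 := ball_subset_ball (by norm_num)
  have z4 : (0 : E m) ∈ ball (0 : E m) 4 := mem_ball_self four_pos
  have tri : ∀ k (x : E (m + 1)), ‖x - w k‖ ≤ ‖x - L.x b‖ + ‖w k - L.x b‖ := fun k x => by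
    simpa using norm_sub_le (x - L.x b) (w k - L.x b)
  rcases lt_or_ge (dist a b) 1 with hd | hd
  · obtain ⟨r, hr, hN⟩ := h1 (by linarith)
    have q1 := ql m M L hm hL c ch s C U z a ha (fun x => ⟪∇ F x, ∇ G x⟫) (fun x => F x * G x) 1 0
      ((cd_grad sF).continuous.inner (cd_grad sG).continuous) (sF.continuous.mul sG.continuous)
    rw [int m M L hL a _ (Ig_cont c sf sg).aestronglyMeasurable
      fun q hq => (Ig0 c g f0 (by linarith)).1]
    have e : ∫ y in ball (0 : E m) 1, Ig L.geo f g (L.φ a y) * J (L.h a) y =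
        ∫ y in ball (0 : E m) 1, (⟪∇ F (L.x (L.φ a y)), ∇ G (L.x (L.φ a y))⟫ + (0 - 1 *
          L.geo.A2 (L.φ a y)) * (F (L.x (L.φ a y)) * G (L.x (L.φ a y)))) * J (L.h a) y := by
      refine setIntegral_congr_fun measurableSet_ball fun y hy => ?_
      have d1 : dist (L.φ a y) a < 2 := by
        have := hL.dφ a y (b14 hy) 0 z4
        rw [hL.φ0, sub_zero] at this
        linarith [mem_ball_zero_iff.1 hy]
      obtain ⟨e1, e2⟩ := eF _ d1
      beta_reduce
      congr 1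
      rw [PiLp.inner_apply, e1]
      simp only [e2, RCLike.inner_apply, conj_trivial]
      rcases lt_or_ge (dist (L.φ a y) b) 2 with k | k
      · obtain ⟨e3, e4⟩ := eG _ k
        simp only [e3, e4, Ig, Geo.Gam, mul_comm (L.geo.δ _ g _)]
        ring
      · have k' : 1 / 8 < dist (L.φ a y) a := by linarith [dist_triangle (L.φ a y) a b]
        simp [(Ig0 c g f0 k').1, del0 c f0 k', f0 _ k'.le]
    rw [e]
    refine q1.congr' ?_
    filter_upwards [ta, tb, hN, ha.good 1 one_pos, hb.good 1 one_pos] with k k1 k2 k3 k4 k5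
    refine setIntegral_congr_fun measurableSet_ball fun y hy => ?_
    beta_reduce
    congr 1
    by_cases hx : ⟪∇ F ((s k).X (z k) y), ∇ G ((s k).X (z k) y)⟫ - (s k).A2 (z k) y *
        (F ((s k).X (z k) y) * G ((s k).X (z k) y)) = 0
    · rw [indicator_apply]
      split_ifs <;> linarith
    · obtain ⟨v, -, v1, v2⟩ := rc m (s k) (w k) (z k) C 1 k5 k4 0 z4 y (b14 hy)
        (by rw [X0 k4]; exact image_mono (ball_subset_ball hr.le) k3) (by
          have t2 := norm_sub_le_norm_sub_add_norm_sub (z k) (L.x a) (L.x b)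
          rw [X0 k4, zero_sub, norm_neg]
          linarith [tri k (z k), hL.dx b a, mem_ball_zero_iff.1 hy])
      rw [indicator_of_mem (show _ ∈ (s k).D (w k) from ⟨v, mem_ball_zero_iff.2 (by
        linarith [(br F0 G0 hx).2, tri k ((s k).X (z k) y)]), v2⟩)]
      ring
  · have e : ∫ q, Ig L.geo f g q ∂L.μ = 0 := by
      refine (integral_congr_ae (Eventually.of_forall fun q => ?_)).trans (integral_zero _ _)
      rcases lt_or_ge (1 / 8) (dist q a) with k | k
      · exact (Ig0 c g f0 k).1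
      · exact (Ig0 c f g0 (by linarith [dist_triangle_left a b q])).2
    rw [e]
    rcases U.em fun k => ∃ y ∈ ball (0 : E m) 1, (s k).X (z k) y ∈ (s k).D (w k) ∧
      ‖(s k).X (z k) y - L.x a‖ ≤ 2 / 5 ∧ ‖(s k).X (z k) y - L.x b‖ ≤ 2 / 5 with h | h
    · exfalso
      have hN : Nr s U w z := by
        refine ⟨7 / 2, by norm_num, ?_⟩
        filter_upwards [tb, h, ha.good 1 one_pos, hb.good 1 one_pos] with k k2 k3 k4 k5
        obtain ⟨y, hy, y1, -, y3⟩ := k3
        obtain ⟨v, v1, -, v2⟩ := rc m (s k) (w k) (z k) C 1 k5 k4 y (b14 hy) 0 z4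
          (image_mono b14 y1) (by
            rw [sub_zero]
            linarith [tri k ((s k).X (z k) y), mem_ball_zero_iff.1 hy])
        exact ⟨v, mem_ball_zero_iff.2 (by linarith), v2.trans (X0 k4)⟩
      obtain ⟨k, y, -, -, y2, y3⟩ := h.exists
      have t := norm_sub_le_norm_sub_add_norm_sub (L.x a) ((s k).X (z k) y) (L.x b)
      rw [norm_sub_rev (L.x a) ((s k).X (z k) y)] at t
      linarith [h2 hN]
    · refine tendsto_const_nhds.congr' ?_
      filter_upwards [h] with k hk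
      refine (setIntegral_eq_zero_of_forall_eq_zero fun y hy => ?_).symm
      rw [indicator_apply]
      split_ifs with k1
      · by_contra k2
        exact hk ⟨y, hy, k1, br F0 G0 (left_ne_zero_of_mul k2)⟩
      · exact zero_mul _

end Stb

open Stb in
/-- **the limit leaf is stable** -/
theorem stb : STB := by
  intro rc int pu ext ql m M _ _ _ _ L hm hL c ch s C U z hs hU hA h1 h2 ψ sψ kψ
  obtain ⟨n, p, f, sf, f0, hψ⟩ := pu m M L.geo hm c.toRule c.toRule2 ψ sψ kψ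
  choose G sG G0 eG using fun i => ext m M L hm hL c ch (p i) (f i) (sf i) (f0 i)
  choose B b0 b1 b2 using fun i => bd (sG i) (G0 i)
  obtain ⟨B', hB⟩ := (finite_range B).bddAbove
  obtain ⟨R, hR⟩ := (finite_range fun i => ‖L.x (p i)‖).bddAbove
  have lim : Tendsto (fun k => (s k).Q (fun i => z (p i) k) G) U
      (𝓝 (∑ i, ∑ j, ∫ q, Ig L.geo (f i) (f j) q ∂L.μ)) :=
    tendsto_finsetSum _ fun i _ => tendsto_finsetSum _ fun j _ =>
      pair rc int ql hm hL c ch (hA (p i)) (hA (p j)) (h1 _ _) (h2 _ _) (sf i) (sf j) (f0 i) (f0 j)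
        (sG i) (sG j) (G0 i) (G0 j) (eG i) (eG j)
  have nn : 0 ≤ ∑ i, ∑ j, ∫ q, Ig L.geo (f i) (f j) q ∂L.μ := by
    refine le_of_forall_pos_le_add fun ε hε => ?_
    rw [← sub_le_iff_le_add, zero_sub]
    refine ge_of_tendsto lim ?_
    have t : ∀ᶠ k in U, ∀ i, z (p i) k ∈ (s k).S ∧ ‖z (p i) k - L.x (p i)‖ < 1 / 10 :=
      eventually_all.2 fun i => (hA _).mem.and (by
        simpa [dist_eq_norm] using
          (hA (p i)).tx.eventually (ball_mem_nhds _ (by norm_num : (0 : ℝ) < 1 / 10)))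
    filter_upwards [hU (hs.st (R + 1) B' n ε hε), t] with k k1 k2
    refine k1 _ _ fun i => ⟨(k2 i).1, ?_, (sG i).of_le (by norm_cast),
      fun x hx => G0 i x ?_, fun x => (b0 i x).trans (hB ⟨i, rfl⟩),
      fun x => (b1 i x).trans (hB ⟨i, rfl⟩), fun x => (b2 i x).trans (hB ⟨i, rfl⟩)⟩
    · have := norm_sub_norm_le (z (p i) k) (L.x (p i))
      linarith [(k2 i).2, hR ⟨i, rfl⟩]
    · have := norm_sub_le (x - L.x (p i)) (z (p i) k - L.x (p i))
      rw [sub_sub_sub_cancel_right] at this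
      linarith [(k2 i).2]
  have := c.fin
  have ig : ∀ {u : M → ℝ} {K : Set M}, IsCompact K → Continuous u → (∀ q ∉ K, u q = 0) →
      Integrable u L.μ := fun hK hu h0 =>
    hu.integrable_of_hasCompactSupport (μ := L.geo.μ) (HasCompactSupport.intro hK h0)
  have ii : ∀ i j, Integrable (Ig L.geo (f i) (f j)) L.μ := fun i j =>
    ig (isCompact_closedBall (p i) (1 / 8)) (Ig_cont c (sf i) (sf j))
      fun q hq => (Ig0 c (f j) (f0 i) (by simpa using hq)).1
  have e : ∀ q, L.geo.Gam ψ ψ q - L.geo.A2 q * ψ q ^ 2 = ∑ i, ∑ j, Ig L.geo (f i) (f j) q := by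
    intro q
    have e1 : ∀ l, L.geo.δ l ψ q = ∑ i, L.geo.δ l (f i) q := fun l => by
      rw [funext hψ]
      exact c.δsum (fun i _ => sf i q) l
    simp only [Ig, Geo.Gam, e1, hψ q, sq, Finset.sum_mul_sum, Finset.sum_sub_distrib]
    simp only [Finset.mul_sum]
    congr 1
    rw [Finset.sum_comm]
    exact Finset.sum_congr rfl fun i _ => Finset.sum_comm
  have i1 : Integrable (fun q => L.geo.A2 q * ψ q ^ 2) L.μ :=
    ig kψ (continuous_iff_continuousAt.2 fun q => (c.cont (c.smA q)).mul ((c.cont (sψ q)).pow 2))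
      fun q hq => by simp [image_eq_zero_of_notMem_tsupport hq]
  have i2 : Integrable (L.geo.Gam ψ ψ) L.μ :=
    ig kψ (continuous_iff_continuousAt.2 fun q => c.cont (c.smG (sψ q) (sψ q))) fun q hq => by
      simp [Geo.Gam, c.cgr (notMem_tsupport_iff_eventuallyEq.1 hq), Pi.zero_def, c.δc]
  rw [← sub_nonneg]
  refine nn.trans_eq ?_
  rw [show L.geo.μ = L.μ from rfl, ← integral_sub i2 i1]
  simp only [e]
  rw [integral_finsetSum _ fun i _ => integrable_finsetSum _ fun j _ => ii i j]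
  exact Finset.sum_congr rfl fun i _ => (integral_finsetSum _ fun j _ => ii i j).symm

end Vale.Agent.P134U
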